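import Vale.Agent.P006.JB.HS
import Vale.Agent.P006.GRAM.Final

/-!
Block JB: the interface `FC.HSHyp` of block FC, unconditionally.
-/

namespace Vale.Agent.P006.JB

/-- the strip bound of block GRAM -/
theorem stripHyp : StripHyp := GRAM.strip_hyp

/-- the interface of block FC -/
theorem hsHyp : FC.HSHyp := hsHyp_of_strip stripHyp

end Vale.Agent.P006.JB
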