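import Mathlib

/-!
Block JB: multiplicative convolution `cv f g Z = ∫_0^∞ f(x) conj g(Z/x) dx/x`.
-/

open MeasureTheory Set Filter
open scoped ENNReal ContDiff Topology ComplexConjugate

namespace Vale.Agent.P006.JB

/-- continuous with `|f| ≤ C (1+x)^{-4}` for `x ≥ 0` -/
structure Db (f : ℝ → ℂ) (C : ℝ) : Prop where
  cont : Continuous f
  le0 : ∀ x : ℝ, 0 ≤ x → (1 + x) ^ 4 * ‖f x‖ ≤ C

/-- `f` is continuous with `|f| ≤ C (1+x)^{-4}`, differentiable on `(0,∞)` with continuous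
derivative `f1`, `|f1| ≤ C (1+x)^{-5}` -/
structure Dc (f f1 : ℝ → ℂ) (C : ℝ) : Prop extends Db f C where
  cont1 : Continuous f1
  deriv : ∀ x : ℝ, 0 < x → HasDerivAt f (f1 x) x
  le1 : ∀ x : ℝ, 0 ≤ x → (1 + x) ^ 5 * ‖f1 x‖ ≤ C

/-- multiplicative convolution -/
noncomputable def cv (f g : ℝ → ℂ) (Z : ℝ) : ℂ :=
  ∫ x in Ioi (0 : ℝ), f x * conj (g (Z / x)) * ((x⁻¹ : ℝ) : ℂ)

/-- derivative of the convolution -/
noncomputable def cv1 (f g1 : ℝ → ℂ) (Z : ℝ) : ℂ :=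
  ∫ x in Ioi (0 : ℝ), f x * conj (g1 (Z / x)) * (((x ^ 2)⁻¹ : ℝ) : ℂ)

/-- Euler operator -/
noncomputable def Eu (f1 : ℝ → ℂ) (x : ℝ) : ℂ := (x : ℂ) * f1 x

section
variable {f f1 g g1 r : ℝ → ℂ} {C D : ℝ}

lemma Db.nonneg (h : Db f C) : 0 ≤ C := le_trans (by positivity) (h.le0 0 le_rfl)

lemma Dc.nonneg (h : Dc f f1 C) : 0 ≤ C := h.toDb.nonneg

lemma Db.mono (h : Db f C) (hCD : C ≤ D) : Db f D := ⟨h.cont, fun x hx => (h.le0 x hx).trans hCD⟩

lemma Dc.mono (h : Dc f f1 C) (hCD : C ≤ D) : Dc f f1 D :=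
  ⟨h.toDb.mono hCD, h.cont1, h.deriv, fun x hx => (h.le1 x hx).trans hCD⟩

lemma Dc.eu (h : Dc f f1 C) : Db (Eu f1) C where
  cont := by
    have := h.cont1
    unfold Eu; fun_prop
  le0 := fun x hx => by
    unfold Eu
    rw [norm_mul, Complex.norm_real, Real.norm_of_nonneg hx]
    refine le_trans ?_ (h.le1 x hx)
    have : 0 ≤ (1 + x) ^ 4 * ‖f1 x‖ := by positivity
    calc (1 + x) ^ 4 * (x * ‖f1 x‖) = x * ((1 + x) ^ 4 * ‖f1 x‖) := by ring
      _ ≤ (1 + x) * ((1 + x) ^ 4 * ‖f1 x‖) := by gcongr; linarith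
      _ = (1 + x) ^ 5 * ‖f1 x‖ := by ring

lemma integrableOn_one_add_pow : IntegrableOn (fun x : ℝ => ((1 + x) ^ 4)⁻¹) (Ioi 0) := by
  have h1 : Integrable (fun x : ℝ => (1 + ‖x‖) ^ (-(4 : ℝ))) :=
    integrable_one_add_norm (by simp)
  refine h1.integrableOn.congr_fun (fun x hx => ?_) measurableSet_Ioi
  have hx0 : (0 : ℝ) < x := hx
  simp only
  rw [Real.norm_of_nonneg hx0.le, Real.rpow_neg (by linarith),
    show (4 : ℝ) = ((4 : ℕ) : ℝ) by norm_num, Real.rpow_natCast]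

lemma Db.norm_le (h : Db f C) {x : ℝ} (hx : 0 ≤ x) : ‖f x‖ ≤ C * ((1 + x) ^ 4)⁻¹ := by
  rw [← div_eq_mul_inv, le_div_iff₀ (by positivity), mul_comm]
  exact h.le0 x hx

lemma Db.norm_le_inv (h : Db f C) {x Z : ℝ} (hx : 0 < x) (hZ : 0 < Z) :
    ‖f (Z / x)‖ ≤ C * (x / Z) := by
  have h1 := h.le0 (Z / x) (by positivity)
  have h2 : Z / x ≤ (1 + Z / x) ^ 4 := by
    have h0 : 0 < Z / x := by positivity
    nlinarith [pow_pos h0 2, pow_pos h0 3, pow_pos h0 4]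
  have h3 : Z / x * ‖f (Z / x)‖ ≤ C := le_trans (by gcongr) h1
  rw [show C * (x / Z) = C / (Z / x) by field_simp, le_div_iff₀ (by positivity), mul_comm]
  exact h3

lemma Dc.norm_le_inv1 (h : Dc f f1 C) {x Z : ℝ} (hx : 0 < x) (hZ : 0 < Z) :
    ‖f1 (Z / x)‖ ≤ C * (x / Z) ^ 2 := by
  have h1 := h.le1 (Z / x) (by positivity)
  have h2 : (Z / x) ^ 2 ≤ (1 + Z / x) ^ 5 := by
    have h0 : 0 < Z / x := by positivity
    nlinarith [pow_pos h0 2, pow_pos h0 3, pow_pos h0 4, pow_pos h0 5]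
  have h3 : (Z / x) ^ 2 * ‖f1 (Z / x)‖ ≤ C := le_trans (by gcongr) h1
  rw [show C * (x / Z) ^ 2 = C / (Z / x) ^ 2 by field_simp, le_div_iff₀ (by positivity), mul_comm]
  exact h3

lemma Db.aesm (hf : Db f C) (hg : Db g D) (Z : ℝ) :
    AEStronglyMeasurable (fun x : ℝ => f x * conj (g (Z / x)) * ((x⁻¹ : ℝ) : ℂ)) volume := by
  have h1 := hf.cont.measurable
  have h2 := hg.cont.measurable
  have h3 : Measurable fun x : ℝ => conj (g (Z / x)) :=
    Complex.continuous_conj.measurable.comp (h2.comp (measurable_const.div measurable_id))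
  exact ((h1.mul h3).mul (by fun_prop)).aestronglyMeasurable

lemma Dc.aesm1 (hf : Db f C) (hg : Dc g g1 D) (Z : ℝ) :
    AEStronglyMeasurable (fun x : ℝ => f x * conj (g1 (Z / x)) * (((x ^ 2)⁻¹ : ℝ) : ℂ)) volume := by
  have h1 := hf.cont.measurable
  have h2 := hg.cont1.measurable
  have h3 : Measurable fun x : ℝ => conj (g1 (Z / x)) :=
    Complex.continuous_conj.measurable.comp (h2.comp (measurable_const.div measurable_id))
  exact ((h1.mul h3).mul (by fun_prop)).aestronglyMeasurable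

lemma Db.bound (hf : Db f C) (hg : Db g D) {Z x : ℝ} (hZ : 0 < Z) (hx : 0 < x) :
    ‖f x * conj (g (Z / x)) * ((x⁻¹ : ℝ) : ℂ)‖ ≤ (C * D / Z) * ((1 + x) ^ 4)⁻¹ := by
  rw [norm_mul, norm_mul, Complex.norm_real, Real.norm_of_nonneg (by positivity), RCLike.norm_conj]
  have h1 := hf.norm_le hx.le
  have h2 := hg.norm_le_inv hx hZ
  have hC := hf.nonneg
  have hD := hg.nonneg
  calc ‖f x‖ * ‖g (Z / x)‖ * x⁻¹ ≤ (C * ((1 + x) ^ 4)⁻¹) * (D * (x / Z)) * x⁻¹ := by gcongr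
    _ = (C * D / Z) * ((1 + x) ^ 4)⁻¹ := by field_simp

lemma Dc.bound1 (hf : Db f C) (hg : Dc g g1 D) {Z x : ℝ} (hZ : 0 < Z) (hx : 0 < x) :
    ‖f x * conj (g1 (Z / x)) * (((x ^ 2)⁻¹ : ℝ) : ℂ)‖ ≤ (C * D / Z ^ 2) * ((1 + x) ^ 4)⁻¹ := by
  rw [norm_mul, norm_mul, Complex.norm_real, Real.norm_of_nonneg (by positivity), RCLike.norm_conj]
  have h1 := hf.norm_le hx.le
  have h2 := hg.norm_le_inv1 hx hZ
  have hC := hf.nonneg
  have hD := hg.nonneg
  calc ‖f x‖ * ‖g1 (Z / x)‖ * (x ^ 2)⁻¹ ≤ (C * ((1 + x) ^ 4)⁻¹) * (D * (x / Z) ^ 2) * (x ^ 2)⁻¹ := by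
        gcongr
    _ = (C * D / Z ^ 2) * ((1 + x) ^ 4)⁻¹ := by field_simp

lemma Db.integrableOn (hf : Db f C) (hg : Db g D) {Z : ℝ} (hZ : 0 < Z) :
    IntegrableOn (fun x : ℝ => f x * conj (g (Z / x)) * ((x⁻¹ : ℝ) : ℂ)) (Ioi 0) := by
  refine (integrableOn_one_add_pow.const_mul (C * D / Z)).mono' (hf.aesm hg Z).restrict ?_
  exact (ae_restrict_mem measurableSet_Ioi).mono fun x hx => hf.bound hg hZ hx

lemma Dc.integrableOn1 (hf : Db f C) (hg : Dc g g1 D) {Z : ℝ} (hZ : 0 < Z) :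
    IntegrableOn (fun x : ℝ => f x * conj (g1 (Z / x)) * (((x ^ 2)⁻¹ : ℝ) : ℂ)) (Ioi 0) := by
  refine (integrableOn_one_add_pow.const_mul (C * D / Z ^ 2)).mono' (Dc.aesm1 hf hg Z).restrict ?_
  exact (ae_restrict_mem measurableSet_Ioi).mono fun x hx => Dc.bound1 hf hg hZ hx

lemma Dc.hasDerivAt_cv (hf : Db f C) (hg : Dc g g1 D) {Z : ℝ} (hZ : 0 < Z) :
    HasDerivAt (cv f g) (cv1 f g1 Z) Z := by
  have hC := hf.nonneg
  have hD := hg.nonneg
  have key := hasDerivAt_integral_of_dominated_loc_of_deriv_le (μ := volume.restrict (Ioi (0 : ℝ)))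
    (F := fun Z x => f x * conj (g (Z / x)) * ((x⁻¹ : ℝ) : ℂ))
    (F' := fun Z x => f x * conj (g1 (Z / x)) * (((x ^ 2)⁻¹ : ℝ) : ℂ)) (x₀ := Z)
    (bound := fun x => (C * D / (Z / 2) ^ 2) * ((1 + x) ^ 4)⁻¹) (s := Ioi (Z / 2))
    (Ioi_mem_nhds (by linarith))
    (Eventually.of_forall fun y => (hf.aesm hg.toDb y).restrict)
    (hf.integrableOn hg.toDb hZ)
    (Dc.aesm1 hf hg Z).restrict
    ((ae_restrict_mem measurableSet_Ioi).mono fun x hx y hy => by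
      have hx0 : (0 : ℝ) < x := hx
      have hy1 : Z / 2 < y := hy
      have hy0 : 0 < y := by linarith
      refine (Dc.bound1 hf hg hy0 hx0).trans ?_
      gcongr)
    (integrableOn_one_add_pow.const_mul _)
    ((ae_restrict_mem measurableSet_Ioi).mono fun x hx y hy => by
      have hx0 : (0 : ℝ) < x := hx
      have hy1 : Z / 2 < y := hy
      have hy0 : 0 < y := by linarith
      have h1 := hg.deriv (y / x) (by positivity)
      have h2 : HasDerivAt (fun y : ℝ => y / x) (1 / x) y := (hasDerivAt_id y).div_const x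
      have h3 : HasDerivAt (fun y : ℝ => g (y / x)) ((1 / x : ℝ) • g1 (y / x)) y :=
        HasDerivAt.scomp y h1 h2
      have h4 : HasDerivAt (fun y : ℝ => conj (g (y / x))) (conj ((1 / x : ℝ) • g1 (y / x))) y :=
        (Complex.conjCLE.toContinuousLinearMap.hasFDerivAt.comp_hasDerivAt y h3)
      have h5 := (h4.const_mul (f x)).mul_const ((x⁻¹ : ℝ) : ℂ)
      convert! h5 using 1
      rw [Complex.real_smul, map_mul, Complex.conj_ofReal]
      have : (x : ℂ) ≠ 0 := by exact_mod_cast hx0.ne'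
      push_cast
      field_simp)
  exact key.2

lemma cv_Eu (f g1 : ℝ → ℂ) (Z : ℝ) :
    (Z : ℂ) * cv1 f g1 Z = cv f (Eu g1) Z := by
  unfold cv1 cv Eu
  rw [← integral_const_mul]
  apply setIntegral_congr_fun measurableSet_Ioi
  intro x hx
  have hx0 : (0 : ℝ) < x := hx
  have : (x : ℂ) ≠ 0 := by exact_mod_cast hx0.ne'
  simp only
  rw [map_mul, Complex.conj_ofReal]
  push_cast
  field_simp

lemma integral_inv_subst (G : ℝ → ℂ) {Z : ℝ} (hZ : 0 < Z) :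
    ∫ x in Ioi (0 : ℝ), G (Z / x) * ((x⁻¹ : ℝ) : ℂ) = ∫ x in Ioi (0 : ℝ), G x * ((x⁻¹ : ℝ) : ℂ) := by
  have h1 := mellin_comp_inv (fun u => G (Z * u)) 0
  have h2 := mellin_comp_mul_left G 0 hZ
  rw [neg_zero] at h1
  rw [neg_zero, Complex.cpow_zero, one_smul] at h2
  rw [h2] at h1
  simp only [mellin, zero_sub, Complex.cpow_neg_one, smul_eq_mul] at h1
  have e1 : ∫ x in Ioi (0 : ℝ), G (Z / x) * ((x⁻¹ : ℝ) : ℂ) =
      ∫ x in Ioi (0 : ℝ), (x : ℂ)⁻¹ * G (Z * x⁻¹) := by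
    congr 1; funext x; rw [div_eq_mul_inv, mul_comm]; push_cast; rfl
  have e2 : ∫ x in Ioi (0 : ℝ), G x * ((x⁻¹ : ℝ) : ℂ) = ∫ x in Ioi (0 : ℝ), (x : ℂ)⁻¹ * G x := by
    congr 1; funext x; rw [mul_comm]; push_cast; rfl
  rw [e1, e2]
  exact h1

/-- flip -/
lemma cv_flip (f g : ℝ → ℂ) {Z : ℝ} (hZ : 0 < Z) : cv g f Z = conj (cv f g Z) := by
  unfold cv
  rw [← integral_conj, ← integral_inv_subst (fun x => g x * conj (f (Z / x))) hZ]
  apply setIntegral_congr_fun measurableSet_Ioi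
  intro x hx
  have hx0 : (0 : ℝ) < x := hx
  simp only
  rw [map_mul, map_mul, Complex.conj_conj, Complex.conj_ofReal,
    show Z / (Z / x) = x by field_simp]
  ring

/-- the Euler operator can be moved to the other factor -/
lemma Dc.cv_swap (hf : Dc f f1 C) (hg : Dc g g1 D) {Z : ℝ} (hZ : 0 < Z) :
    cv f (Eu g1) Z = cv (Eu f1) g Z := by
  have h1 := Dc.hasDerivAt_cv hf.toDb hg hZ
  have h2 := Dc.hasDerivAt_cv hg.toDb hf hZ
  have h3 : HasDerivAt (cv f g) (conj (cv1 g f1 Z)) Z := by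
    have h4 : HasDerivAt (fun y : ℝ => conj (cv g f y)) (conj (cv1 g f1 Z)) Z :=
      (Complex.conjCLE.toContinuousLinearMap.hasFDerivAt.comp_hasDerivAt Z h2)
    refine h4.congr_of_eventuallyEq ?_
    filter_upwards [Ioi_mem_nhds hZ] with y hy
    exact cv_flip g f hy
  have h5 := h1.unique h3
  rw [← cv_Eu, h5, cv_flip g (Eu f1) hZ, ← cv_Eu, map_mul, Complex.conj_ofReal]

lemma cv_add_left (hf : Db f C) (hr : Db r C) (hg : Db g D) (a b : ℂ) {Z : ℝ} (hZ : 0 < Z) :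
    cv (fun x => a * f x + b * r x) g Z = a * cv f g Z + b * cv r g Z := by
  unfold cv
  rw [← integral_const_mul, ← integral_const_mul, ← integral_add
    ((hf.integrableOn hg hZ).const_mul a) ((hr.integrableOn hg hZ).const_mul b)]
  congr 1
  funext x
  ring

lemma cv_add_right (hf : Db f C) (hr : Db r C) (hg : Db g D) (a b : ℂ) {Z : ℝ} (hZ : 0 < Z) :
    cv g (fun x => a * f x + b * r x) Z = conj a * cv g f Z + conj b * cv g r Z := by
  unfold cv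
  rw [← integral_const_mul, ← integral_const_mul, ← integral_add
    ((hg.integrableOn hf hZ).const_mul _) ((hg.integrableOn hr hZ).const_mul _)]
  congr 1
  funext x
  rw [map_add, map_mul, map_mul]
  ring

lemma cv_congr_left {f f' : ℝ → ℂ} (h : ∀ x : ℝ, 0 < x → f x = f' x) (g : ℝ → ℂ) (Z : ℝ) :
    cv f g Z = cv f' g Z := by
  unfold cv
  apply setIntegral_congr_fun measurableSet_Ioi
  intro x hx
  simp only [h x hx]

lemma cv_congr_right {g g' : ℝ → ℂ} (h : ∀ x : ℝ, 0 < x → g x = g' x) (f : ℝ → ℂ) {Z : ℝ}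
    (hZ : 0 < Z) : cv f g Z = cv f g' Z := by
  unfold cv
  apply setIntegral_congr_fun measurableSet_Ioi
  intro x hx
  have hx0 : (0 : ℝ) < x := hx
  simp only [h (Z / x) (by positivity)]

/-- **the symmetrised derivative**: if `x f' = (it-1) f + r` then
`Z (cv f f)' = - cv f f + (cv f r + cv r f)/2`, no `t`. -/
lemma Dc.euler_cv (hf : Dc f f1 C) (hr : Db r C) (t : ℝ)
    (he : ∀ x : ℝ, 0 < x → (x : ℂ) * f1 x = (t * Complex.I - 1) * f x + r x) {Z : ℝ} (hZ : 0 < Z) :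
    (Z : ℂ) * cv1 f f1 Z = - cv f f Z + (1 / 2) * (cv f r Z + cv r f Z) := by
  have h1 : (Z : ℂ) * cv1 f f1 Z = cv f (Eu f1) Z := cv_Eu f f1 Z
  have h2 : cv f (Eu f1) Z = cv (Eu f1) f Z := Dc.cv_swap hf hf hZ
  have e : ∀ x : ℝ, 0 < x → Eu f1 x = (t * Complex.I - 1) * f x + 1 * r x := by
    intro x hx; unfold Eu; rw [he x hx, one_mul]
  have h3 : cv f (Eu f1) Z = conj (t * Complex.I - 1 : ℂ) * cv f f Z + conj (1 : ℂ) * cv f r Z := by
    rw [cv_congr_right e f hZ, cv_add_right hf.toDb hr hf.toDb _ _ hZ]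
  have h4 : cv (Eu f1) f Z = (t * Complex.I - 1 : ℂ) * cv f f Z + 1 * cv r f Z := by
    rw [cv_congr_left e f Z, cv_add_left hf.toDb hr hf.toDb _ _ hZ]
  have hc : conj (t * Complex.I - 1 : ℂ) = -(t * Complex.I) - 1 := by
    simp [Complex.conj_ofReal]
  rw [hc, map_one] at h3
  rw [h1]
  have h5 : 2 * cv f (Eu f1) Z = (-(t * Complex.I) - 1) * cv f f Z + 1 * cv f r Z +
      ((t * Complex.I - 1) * cv f f Z + 1 * cv r f Z) := by
    rw [← h3, ← h4, ← h2]; ring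
  linear_combination (1 / 2 : ℂ) * h5

end

end Vale.Agent.P006.JB
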