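import Mathlib
import Vale.Agent.P006.JB.Conv

/-!
Block JB: weighted `L¹` bounds for the multiplicative convolution.
-/

open MeasureTheory Set Filter
open scoped ENNReal ContDiff Topology ComplexConjugate

namespace Vale.Agent.P006.JB

/-- weighted `L¹` norm -/
noncomputable def nw (p : ℝ) (f : ℝ → ℂ) : ℝ := ∫ x in Ioi (0 : ℝ), x ^ p * ‖f x‖

lemma nw_nonneg (p : ℝ) (f : ℝ → ℂ) : 0 ≤ nw p f :=
  setIntegral_nonneg measurableSet_Ioi fun _ hx =>
    mul_nonneg (Real.rpow_nonneg (le_of_lt hx) _) (norm_nonneg _)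

/-- finite weighted norm -/
def Fw (p : ℝ) (f : ℝ → ℂ) : Prop := IntegrableOn (fun x : ℝ => x ^ p * ‖f x‖) (Ioi 0)

lemma scale_Fw {g : ℝ → ℂ} {p : ℝ} (hg : Fw p g) {x : ℝ} (hx : 0 < x) :
    IntegrableOn (fun Z : ℝ => Z ^ p * ‖g (Z / x)‖) (Ioi 0) ∧
      ∫ Z in Ioi (0 : ℝ), Z ^ p * ‖g (Z / x)‖ = x ^ p * x * nw p g := by
  have hxi : 0 < x⁻¹ := inv_pos.2 hx
  have h1 := (integrableOn_Ioi_comp_mul_left_iff (fun u : ℝ => u ^ p * ‖g u‖) 0 hxi).2
    (by rw [mul_zero]; exact hg)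
  have e : ∀ Z ∈ Ioi (0 : ℝ), Z ^ p * ‖g (Z / x)‖ = x ^ p * ((x⁻¹ * Z) ^ p * ‖g (x⁻¹ * Z)‖) := by
    intro Z hZ
    have hZ0 : (0 : ℝ) < Z := hZ
    rw [Real.mul_rpow hxi.le hZ0.le, Real.inv_rpow hx.le, div_eq_inv_mul]
    have : x ^ p ≠ 0 := (Real.rpow_pos_of_pos hx p).ne'
    field_simp
  constructor
  · exact IntegrableOn.congr_fun (h1.const_mul (x ^ p)) (fun Z hZ => (e Z hZ).symm) measurableSet_Ioi
  · rw [setIntegral_congr_fun measurableSet_Ioi e, integral_const_mul]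
    have h2 := integral_comp_mul_left_Ioi (fun u : ℝ => u ^ p * ‖g u‖) 0 hxi
    rw [h2, mul_zero, inv_inv, smul_eq_mul, nw]
    ring

section
variable {f g : ℝ → ℂ} {C D p : ℝ}

/-- weighted `L¹` bound -/
theorem Db.cv_Fw (hf : Db f C) (hg : Db g D) (hfp : Fw p f) (hgp : Fw p g) :
    AEStronglyMeasurable (cv f g) (volume.restrict (Ioi 0)) ∧
    Fw p (cv f g) ∧ nw p (cv f g) ≤ nw p f * nw p g := by
  set μ : Measure ℝ := volume.restrict (Ioi (0 : ℝ)) with hμ
  have hfm := hf.cont.measurable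
  have hgm := hg.cont.measurable
  -- the kernel
  set F : ℝ × ℝ → ℂ := fun q => ((q.1 ^ p : ℝ) : ℂ) *
    (f q.2 * conj (g (q.1 / q.2)) * ((q.2⁻¹ : ℝ) : ℂ)) with hF
  have hFm : Measurable F := by
    have h3 : Measurable fun q : ℝ × ℝ => conj (g (q.1 / q.2)) :=
      Complex.continuous_conj.measurable.comp (hgm.comp (measurable_fst.div measurable_snd))
    have h4 : Measurable fun q : ℝ × ℝ => ((q.1 ^ p : ℝ) : ℂ) :=
      Complex.measurable_ofReal.comp (measurable_fst.pow_const p)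
    have h5 : Measurable fun q : ℝ × ℝ => ((q.2⁻¹ : ℝ) : ℂ) :=
      Complex.measurable_ofReal.comp measurable_snd.inv
    exact h4.mul (((hfm.comp measurable_snd).mul h3).mul h5)
  have hnorm : ∀ Z ∈ Ioi (0 : ℝ), ∀ x ∈ Ioi (0 : ℝ), ‖F (Z, x)‖ =
      (‖f x‖ * x⁻¹) * (Z ^ p * ‖g (Z / x)‖) := by
    intro Z hZ x hx
    have hZ0 : (0 : ℝ) < Z := hZ
    have hx0 : (0 : ℝ) < x := hx
    simp only [hF, norm_mul, Complex.norm_real, RCLike.norm_conj]
    rw [Real.norm_of_nonneg (by positivity), Real.norm_of_nonneg (by positivity)]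
    ring
  have hFi : Integrable F (μ.prod μ) := by
    rw [integrable_prod_iff' hFm.aestronglyMeasurable]
    constructor
    · refine (ae_restrict_mem measurableSet_Ioi).mono fun x hx => ?_
      have h1 := (scale_Fw hgp hx).1.const_mul (‖f x‖ * x⁻¹)
      refine Integrable.mono' h1 (hFm.comp (measurable_id.prodMk measurable_const)).aestronglyMeasurable ?_
      refine (ae_restrict_mem measurableSet_Ioi).mono fun Z hZ => ?_
      exact (hnorm Z hZ x hx).le
    · have h2 : IntegrableOn (fun x : ℝ => (x ^ p * ‖f x‖) * nw p g) (Ioi 0) := hfp.mul_const _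
      refine IntegrableOn.congr_fun h2 (fun x hx => ?_) measurableSet_Ioi
      have hx0 : (0 : ℝ) < x := hx
      rw [setIntegral_congr_fun measurableSet_Ioi (fun Z hZ => hnorm Z hZ x hx), integral_const_mul,
        (scale_Fw hgp hx).2]
      field_simp
  -- measurability for p = 0 is obtained by dividing by Z^p
  have hcvp : ∀ Z ∈ Ioi (0 : ℝ), ∫ x, F (Z, x) ∂μ = ((Z ^ p : ℝ) : ℂ) * cv f g Z := by
    intro Z _
    simp only [hF]
    rw [integral_const_mul]; rfl
  have hI1 : Integrable (fun Z => ∫ x, F (Z, x) ∂μ) μ := hFi.integral_prod_left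
  have hI2 : Integrable (fun Z => ∫ x, ‖F (Z, x)‖ ∂μ) μ := hFi.integral_norm_prod_left
  have hm : AEStronglyMeasurable (cv f g) μ := by
    have h1 : AEStronglyMeasurable (fun Z : ℝ => (((Z ^ p)⁻¹ : ℝ) : ℂ) * ∫ x, F (Z, x) ∂μ) μ := by
      refine AEStronglyMeasurable.mul ?_ hI1.aestronglyMeasurable
      exact (Complex.measurable_ofReal.comp
        (measurable_id.pow_const p).inv).aestronglyMeasurable
    refine h1.congr ((ae_restrict_mem measurableSet_Ioi).mono fun Z hZ => ?_)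
    have hZ0 : (0 : ℝ) < Z := hZ
    simp only
    rw [hcvp Z hZ]
    have : ((Z ^ p : ℝ) : ℂ) ≠ 0 := by exact_mod_cast (Real.rpow_pos_of_pos hZ0 p).ne'
    push_cast
    field_simp
  have hle : ∀ Z ∈ Ioi (0 : ℝ), Z ^ p * ‖cv f g Z‖ ≤ ∫ x, ‖F (Z, x)‖ ∂μ := by
    intro Z hZ
    have hZ0 : (0 : ℝ) < Z := hZ
    have h1 := norm_integral_le_integral_norm (μ := μ) (fun x => F (Z, x))
    rwa [hcvp Z hZ, norm_mul, Complex.norm_real, Real.norm_of_nonneg (by positivity)] at h1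
  have hFw : Fw p (cv f g) := by
    refine Integrable.mono' hI2 ?_ ((ae_restrict_mem measurableSet_Ioi).mono fun Z hZ => ?_)
    · exact ((measurable_id.pow_const p).aestronglyMeasurable).mul hm.norm
    · have hZ0 : (0 : ℝ) < Z := hZ
      rw [Real.norm_of_nonneg (by positivity)]
      exact hle Z hZ
  refine ⟨hm, hFw, ?_⟩
  calc nw p (cv f g) ≤ ∫ Z, ∫ x, ‖F (Z, x)‖ ∂μ ∂μ :=
        setIntegral_mono_on hFw hI2 measurableSet_Ioi hle
    _ = ∫ x, ∫ Z, ‖F (Z, x)‖ ∂μ ∂μ := integral_integral_swap hFi.norm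
    _ = ∫ x in Ioi (0 : ℝ), (x ^ p * ‖f x‖) * nw p g := by
        apply setIntegral_congr_fun measurableSet_Ioi
        intro x hx
        have hx0 : (0 : ℝ) < x := hx
        simp only
        rw [setIntegral_congr_fun measurableSet_Ioi (fun Z hZ => hnorm Z hZ x hx), integral_const_mul,
          (scale_Fw hgp hx).2]
        field_simp
    _ = nw p f * nw p g := by rw [integral_mul_const]; rfl

end

/-- decay gives finiteness of the weighted norms -/
lemma Db.fw {f : ℝ → ℂ} {C : ℝ} (hf : Db f C) {p : ℝ} (hp0 : 0 ≤ p) (hp : p ≤ 2) : Fw p f := by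
  have hfc := hf.cont
  have hC := hf.nonneg
  have h1 : Integrable (fun x : ℝ => (1 + ‖x‖) ^ (-(2 : ℝ))) :=
    integrable_one_add_norm (by simp)
  refine Integrable.mono' (h1.integrableOn.const_mul C)
    ((by fun_prop : Measurable fun x : ℝ => x ^ p * ‖f x‖).aestronglyMeasurable)
    ((ae_restrict_mem measurableSet_Ioi).mono fun x hx => ?_)
  have hx0 : (0 : ℝ) < x := hx
  rw [Real.norm_of_nonneg (by positivity), Real.norm_of_nonneg hx0.le]
  have h2 : x ^ p ≤ (1 + x) ^ 2 := by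
    calc x ^ p ≤ (1 + x) ^ p := Real.rpow_le_rpow hx0.le (by linarith) hp0
      _ ≤ (1 + x) ^ (2 : ℝ) := Real.rpow_le_rpow_of_exponent_le (by linarith) hp
      _ = (1 + x) ^ 2 := by rw [← Real.rpow_natCast]; norm_num
  have h3 := hf.norm_le hx0.le
  calc x ^ p * ‖f x‖ ≤ (1 + x) ^ 2 * (C * ((1 + x) ^ 4)⁻¹) := by gcongr
    _ = C * (1 + x) ^ (-(2 : ℝ)) := by
        rw [Real.rpow_neg (by linarith), show (2 : ℝ) = ((2 : ℕ) : ℝ) by norm_num, Real.rpow_natCast]
        have : (1 + x) ≠ 0 := by positivity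
        field_simp

end Vale.Agent.P006.JB
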