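import Vale.Agent.P006.JB.Final
import Mathlib.MeasureTheory.Integral.Gamma

/-!
Block JB: correlation data and norms of the exponential profile `exp (-x/X)`.
-/

open MeasureTheory Set Filter
open scoped ENNReal ContDiff Topology ComplexConjugate

namespace Vale.Agent.P006.JB

/-- the exponential profile, continuous version -/
noncomputable def eX (X x : ℝ) : ℂ := ((Real.exp (-(|x| / X)) : ℝ) : ℂ)

/-- its derivative on `x > 0` -/
noncomputable def eX1 (X x : ℝ) : ℂ := ((-X⁻¹ * Real.exp (-(|x| / X)) : ℝ) : ℂ)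

lemma eX_of_pos {X x : ℝ} (hx : 0 ≤ x) : eX X x = ((Real.exp (-(x / X)) : ℝ) : ℂ) := by
  rw [eX, abs_of_nonneg hx]

lemma pow_mul_exp_le {X : ℝ} (hX : 0 < X) (k : ℕ) {x : ℝ} (hx : 0 ≤ x) :
    (1 + x) ^ k * Real.exp (-(x / X)) ≤ (1 + X) ^ k * (k.factorial * Real.exp 1) := by
  have h1 : (1 + x / X) ^ k / k.factorial ≤ Real.exp (1 + x / X) :=
    Real.pow_div_factorial_le_exp _ (by positivity) k
  have h2 : (1 + x) ≤ (1 + X) * (1 + x / X) := by
    have : 0 ≤ x / X := by positivity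
    have e : (1 + X) * (1 + x / X) = 1 + x + X + x / X := by field_simp; ring
    rw [e]; linarith
  have hk : (0 : ℝ) < k.factorial := by positivity
  rw [div_le_iff₀ hk] at h1
  calc (1 + x) ^ k * Real.exp (-(x / X)) ≤ ((1 + X) * (1 + x / X)) ^ k * Real.exp (-(x / X)) := by
        gcongr
    _ = (1 + X) ^ k * ((1 + x / X) ^ k * Real.exp (-(x / X))) := by rw [mul_pow]; ring
    _ ≤ (1 + X) ^ k * ((Real.exp (1 + x / X) * k.factorial) * Real.exp (-(x / X))) := by gcongr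
    _ = (1 + X) ^ k * (k.factorial * (Real.exp (1 + x / X) * Real.exp (-(x / X)))) := by ring
    _ = _ := by rw [← Real.exp_add]; ring_nf

lemma exists_dc_eX {X : ℝ} (hX : 0 < X) : ∃ C, Dc (eX X) (eX1 X) C := by
  refine ⟨(1 + X) ^ 4 * ((4 : ℕ).factorial * Real.exp 1) +
    X⁻¹ * ((1 + X) ^ 5 * ((5 : ℕ).factorial * Real.exp 1)), ⟨?_, ?_⟩, ?_, ?_, ?_⟩
  · unfold eX; fun_prop
  · intro x hx
    rw [eX_of_pos hx, Complex.norm_real, Real.norm_of_nonneg (Real.exp_pos _).le]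
    have := pow_mul_exp_le hX 4 hx
    have h2 : 0 ≤ X⁻¹ * ((1 + X) ^ 5 * ((5 : ℕ).factorial * Real.exp 1)) := by positivity
    linarith
  · unfold eX1; fun_prop
  · intro x hx
    have h1 : HasDerivAt (fun y : ℝ => Real.exp (-(y / X))) (Real.exp (-(x / X)) * (-(1 / X))) x :=
      (((hasDerivAt_id x).div_const X).neg).exp
    have h2 : HasDerivAt (fun y : ℝ => ((Real.exp (-(y / X)) : ℝ) : ℂ))
        ((Real.exp (-(x / X)) * (-(1 / X)) : ℝ) : ℂ) x := h1.ofReal_comp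
    have h3 : eX1 X x = ((Real.exp (-(x / X)) * (-(1 / X)) : ℝ) : ℂ) := by
      rw [eX1, abs_of_pos hx]; congr 1; ring
    rw [h3]
    refine h2.congr_of_eventuallyEq ?_
    filter_upwards [Ioi_mem_nhds hx] with y hy
    exact eX_of_pos (le_of_lt hy)
  · intro x hx
    rw [eX1, Complex.norm_real, Real.norm_eq_abs, abs_mul, abs_neg, abs_of_pos (inv_pos.2 hX),
      abs_of_pos (Real.exp_pos _), abs_of_nonneg hx]
    have h1 := pow_mul_exp_le hX 5 hx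
    have h2 : 0 ≤ (1 + X) ^ 4 * ((4 : ℕ).factorial * Real.exp 1) := by positivity
    calc (1 + x) ^ 5 * (X⁻¹ * Real.exp (-(x / X))) = X⁻¹ * ((1 + x) ^ 5 * Real.exp (-(x / X))) := by
          ring
      _ ≤ X⁻¹ * ((1 + X) ^ 5 * ((5 : ℕ).factorial * Real.exp 1)) := by gcongr
      _ ≤ _ := le_add_of_nonneg_left h2

lemma int_exp {X : ℝ} (hX : 0 < X) {p : ℝ} (hp : -1 < p) :
    ∫ x in Ioi (0 : ℝ), x ^ p * Real.exp (-(x / X)) = Real.Gamma (p + 1) * X ^ (p + 1) := by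
  have h := Real.integral_rpow_mul_exp_neg_mul_Ioi (a := p + 1) (r := X⁻¹) (by linarith)
    (inv_pos.2 hX)
  rw [add_sub_cancel_right] at h
  have e : ∀ x : ℝ, x ^ p * Real.exp (-(x / X)) = x ^ p * Real.exp (-(X⁻¹ * x)) := by
    intro x; rw [div_eq_inv_mul]
  simp only [e]
  rw [h, one_div, inv_inv, mul_comm]

lemma nw_eX {X : ℝ} (hX : 0 < X) {p : ℝ} (hp : -1 < p) :
    nw p (eX X) = Real.Gamma (p + 1) * X ^ (p + 1) := by
  rw [nw, ← int_exp hX hp]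
  refine setIntegral_congr_fun measurableSet_Ioi fun x hx => ?_
  have hx0 : (0 : ℝ) < x := hx
  rw [eX_of_pos hx0.le, Complex.norm_real, Real.norm_of_nonneg (Real.exp_pos _).le]

lemma nw0_eX {X : ℝ} (hX : 0 < X) : nw 0 (eX X) = X := by
  rw [nw_eX hX (by norm_num)]; simp

lemma nw3_eX {X : ℝ} (hX : 0 < X) :
    nw (1 / 3) (eX X) = Real.Gamma (4 / 3) * X ^ (4 / 3 : ℝ) := by
  rw [nw_eX hX (by norm_num)]; norm_num

lemma nw0_Eu_eX {X : ℝ} (hX : 0 < X) : nw 0 (Eu (eX1 X)) = X := by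
  have h := int_exp hX (p := 1) (by norm_num)
  have e : nw 0 (Eu (eX1 X)) = X⁻¹ * ∫ x in Ioi (0 : ℝ), x ^ (1 : ℝ) * Real.exp (-(x / X)) := by
    rw [nw, ← integral_const_mul]
    refine setIntegral_congr_fun measurableSet_Ioi fun x hx => ?_
    have hx0 : (0 : ℝ) < x := hx
    rw [Eu, eX1, norm_mul, Complex.norm_real, Complex.norm_real, Real.norm_of_nonneg hx0.le,
      Real.norm_eq_abs, abs_mul, abs_neg, abs_of_pos (inv_pos.2 hX), abs_of_pos (Real.exp_pos _),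
      abs_of_pos hx0, Real.rpow_zero, Real.rpow_one]
    ring
  rw [e, h]
  have h2 : Real.Gamma (1 + 1) = 1 := by norm_num [Real.Gamma_two]
  rw [h2, one_mul, show (1 + 1 : ℝ) = 2 by norm_num, Real.rpow_two]
  field_simp

/-- `∫ |f|² x dx = X² / 4` -/
lemma nrm2_eX {X : ℝ} (hX : 0 < X) : GRAM.nrm2 (eX X) = X ^ 2 / 4 := by
  have h := int_exp (X := X / 2) (by positivity) (p := 1) (by norm_num)
  have h2 : Real.Gamma (1 + 1) = 1 := by norm_num [Real.Gamma_two]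
  rw [h2, one_mul, show (1 + 1 : ℝ) = 2 by norm_num, Real.rpow_two] at h
  rw [GRAM.nrm2]
  have e : ∫ x in Ioi (0 : ℝ), x * ‖eX X x‖ ^ 2 =
      ∫ x in Ioi (0 : ℝ), x ^ (1 : ℝ) * Real.exp (-(x / (X / 2))) := by
    refine setIntegral_congr_fun measurableSet_Ioi fun x hx => ?_
    have hx0 : (0 : ℝ) < x := hx
    rw [eX_of_pos hx0.le, Complex.norm_real, Real.norm_of_nonneg (Real.exp_pos _).le,
      ← Real.exp_nat_mul, Real.rpow_one]
    congr 2
    push_cast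
    field_simp
  rw [e, h]
  ring

/-- `l(f) = Γ(4/3) X^{4/3}` -/
lemma lf_eX {X : ℝ} (hX : 0 < X) :
    GRAM.lf (eX X) = ((Real.Gamma (4 / 3) * X ^ (4 / 3 : ℝ) : ℝ) : ℂ) := by
  have h := int_exp hX (p := 1 / 3) (by norm_num)
  rw [show (1 / 3 + 1 : ℝ) = 4 / 3 by norm_num] at h
  rw [← h, GRAM.lf, ← integral_complex_ofReal]
  refine setIntegral_congr_fun measurableSet_Ioi fun x hx => ?_
  have hx0 : (0 : ℝ) < x := hx
  rw [eX_of_pos hx0.le]
  push_cast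
  rfl

section congr

variable {f g f' g' : ℝ → ℂ}

lemma HPair_congr {H H1 : ℝ → ℂ} (h : GRAM.HPair f g H H1) (hf : ∀ x, 0 < x → f' x = f x)
    (hg : ∀ x, 0 < x → g' x = g x) : GRAM.HPair f' g' H H1 where
  corr := fun Z hZ => by
    rw [h.corr Z hZ]
    refine setIntegral_congr_fun measurableSet_Ioi fun x hx => ?_
    have hx0 : (0 : ℝ) < x := hx
    rw [hf x hx0, hg _ (div_pos hZ hx0)]
  hd := h.hd

lemma CL_congr (h : GRAM.CL f) (hm : Measurable f') (hf : ∀ x, 0 < x → f' x = f x) :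
    GRAM.CL f' where
  meas := hm
  bound := by
    obtain ⟨C, hC, h⟩ := h.bound
    exact ⟨C, hC, fun x hx => by rw [hf x hx]; exact h x hx⟩

lemma lf_congr (hf : ∀ x, 0 < x → f' x = f x) : GRAM.lf f' = GRAM.lf f := by
  unfold GRAM.lf
  refine setIntegral_congr_fun measurableSet_Ioi fun x hx => ?_
  rw [hf x hx]

lemma nrm2_congr (hf : ∀ x, 0 < x → f' x = f x) : GRAM.nrm2 f' = GRAM.nrm2 f := by
  unfold GRAM.nrm2
  refine setIntegral_congr_fun measurableSet_Ioi fun x hx => ?_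
  rw [hf x hx]

end congr

/-- **the exponential profile**: any measurable `f` with `f x = exp (-x/X)` for `x > 0` -/
theorem exp_main {X : ℝ} (hX : 0 < X) {f : ℝ → ℂ} (hm : Measurable f)
    (hf : ∀ x, 0 < x → f x = ((Real.exp (-(x / X)) : ℝ) : ℂ)) :
    GRAM.CL f ∧ GRAM.nrm2 f = X ^ 2 / 4 ∧
      GRAM.lf f = ((Real.Gamma (4 / 3) * X ^ (4 / 3 : ℝ) : ℝ) : ℂ) ∧
      ∃ H H1 : ℝ → ℂ, GRAM.HPair f f H H1 ∧ GRAM.nJ0 H ≤ X ^ 2 ∧ GRAM.nJ1 H1 ≤ X ^ 2 ∧
        GRAM.nL H ≤ (Real.Gamma (4 / 3) * X ^ (4 / 3 : ℝ)) ^ 2 := by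
  have hf' : ∀ x, 0 < x → f x = eX X x := fun x hx => by rw [hf x hx, eX_of_pos hx.le]
  obtain ⟨C, hC⟩ := exists_dc_eX hX
  refine ⟨CL_congr hC.toDb.toCL hm hf', ?_, ?_, cv (eX X) (eX X), cv1 (eX X) (eX1 X),
    HPair_congr (hC.hPair hC) hf' hf', ?_, ?_, ?_⟩
  · rw [nrm2_congr hf', nrm2_eX hX]
  · rw [lf_congr hf', lf_eX hX]
  · have h0 := hC.toDb.fw (p := 0) le_rfl (by norm_num)
    have h := (hC.toDb.cv_Fw hC.toDb h0 h0).2.2
    rw [nw_zero, nw0_eX hX] at h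
    rw [GRAM.nJ0]
    nlinarith
  · have h0 := hC.toDb.fw (p := 0) le_rfl (by norm_num)
    have h1 := hC.eu.fw (p := 0) le_rfl (by norm_num)
    have h := (hC.toDb.cv_Fw hC.eu h0 h1).2.2
    rw [nw_zero, nw0_eX hX, nw0_Eu_eX hX] at h
    have e : GRAM.nJ1 (cv1 (eX X) (eX1 X)) = ∫ Z in Ioi (0 : ℝ), ‖cv (eX X) (Eu (eX1 X)) Z‖ := by
      rw [GRAM.nJ1]
      refine setIntegral_congr_fun measurableSet_Ioi fun Z hZ => ?_
      have hZ0 : (0 : ℝ) < Z := hZ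
      rw [← cv_Eu, norm_mul, Complex.norm_real, Real.norm_of_nonneg hZ0.le]
    rw [e]
    nlinarith
  · have h0 := hC.toDb.fw (p := 1 / 3) (by norm_num) (by norm_num)
    have h := (hC.toDb.cv_Fw hC.toDb h0 h0).2.2
    rw [nw3_eX hX] at h
    rw [GRAM.nL, sq]
    exact h

end Vale.Agent.P006.JB
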