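import Vale.Agent.P006.JB.Exp
import Vale.Agent.P006.SG.Noise

/-!
Block JB: the norms of the exponential profiles, for block SG.
-/

open MeasureTheory Set Filter
open scoped ENNReal ContDiff Topology ComplexConjugate

namespace Vale.Agent.P006.JB

lemma measurable_fX (X : ℝ) : Measurable (SG.fX X) := by
  unfold SG.fX
  refine Complex.measurable_ofReal.comp ?_
  exact Measurable.ite measurableSet_Ioi (by fun_prop) measurable_const

lemma fX_of_pos (X : ℝ) {x : ℝ} (hx : 0 < x) : SG.fX X x = ((Real.exp (-(x / X)) : ℝ) : ℂ) := by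
  rw [SG.fX, if_pos hx]

/-- **the norms of the exponential profiles** -/
theorem expNorms : SG.ExpNorms := by
  have hG : 0 < Real.Gamma (4 / 3) := Real.Gamma_pos_of_pos (by norm_num)
  refine ⟨2 + Real.Gamma (4 / 3) ^ 2, by positivity, fun X hX => ?_⟩
  have hX0 : 0 < X := by linarith
  obtain ⟨h1, h2, h3, H, H1, h4, h5, h6, h7⟩ := exp_main hX0 (measurable_fX X)
    (fun x hx => fX_of_pos X hx)
  have hX2 : 0 ≤ X ^ 2 := by positivity
  have hg2 : 0 ≤ Real.Gamma (4 / 3) ^ 2 * X ^ 2 := by positivity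
  refine ⟨h1, ?_, H, H1, h4, ?_, ?_, ?_⟩
  · rw [h3, Complex.norm_real, Real.norm_of_nonneg (by positivity), SG.lX]
  · rw [h2]; nlinarith
  · nlinarith
  · refine h7.trans ?_
    have e : (X ^ (4 / 3 : ℝ)) ^ 2 = X ^ (8 / 3 : ℝ) := by
      rw [← Real.rpow_natCast, ← Real.rpow_mul hX0.le]; norm_num
    rw [mul_pow, e]
    have : 0 ≤ X ^ (8 / 3 : ℝ) := by positivity
    nlinarith

end Vale.Agent.P006.JB

namespace Vale.Agent.P006.SG

open MeasureTheory Set Filter Topology Vale.Agent.P006 GRAM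

/-- **upper bound for the Gram form of the exponential profiles** -/
theorem gram_exp : ∀ ε > 0, ∀ᶠ X in atTop,
    (∫ w in H9.P3, fX X (1 / w.v) * (starRingEnd ℂ) (H9.E 1 R1.eta (fX X) w) ∂H9.muH).re ≤
      (H9.area * (4 * Real.pi ^ 2 / 243 * D1) + ε) * lX X ^ 2 := gram_exp' JB.expNorms

/-- **`S`-invariance in mean square for the exponential profiles** -/
theorem inv_exp : ∀ ε > 0, ∀ᶠ X in atTop,
    ∫⁻ w in H9.Ptop (1 / 3), ‖H9.E 1 R1.eta (fX X) (KU.Smat O • w) -
      H9.E 1 R1.eta (fX X) w‖ₑ ^ 2 ∂H9.muH ≤ ENNReal.ofReal (ε * lX X ^ 2) :=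
  inv_exp' JB.expNorms

end Vale.Agent.P006.SG
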