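import Mathlib
import Vale.Agent.P006.KER.Twist

/-!
Block JB: twisted weights `U(s) s^{it}` and their sine transforms.
-/

open MeasureTheory Set Filter
open scoped ENNReal FourierTransform ContDiff Topology

namespace Vale.Agent.P006.JB

open KER

/-- the phase `(2τ)^{-it}` -/
noncomputable def ex (t τ : ℝ) : ℂ :=
  Complex.exp (((-(t * Real.log (2 * τ)) : ℝ) : ℂ) * Complex.I)

@[simp] lemma norm_ex (t τ : ℝ) : ‖ex t τ‖ = 1 := by
  unfold ex; rw [Complex.norm_exp_ofReal_mul_I]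

/-- twist of a function on the dual side -/
noncomputable def twd (V : ℝ → ℂ) (t τ : ℝ) : ℂ := V τ * ex t τ

lemma norm_twd (V : ℝ → ℂ) (t τ : ℝ) : ‖twd V t τ‖ = ‖V τ‖ := by
  unfold twd; rw [norm_mul, norm_ex, mul_one]

lemma hW_tw' (U : ℝ → ℂ) (t : ℝ) : hW (KER.tw U t) = twd (hW U) t := by
  funext τ
  simp only [hW, KER.tw, twd, ex]
  rw [one_div, Real.log_inv]
  rw [show t * -Real.log (2 * τ) = -(t * Real.log (2 * τ)) by ring]
  ring

lemma hasDerivAt_ex (t : ℝ) {τ : ℝ} (hτ : 0 < τ) :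
    HasDerivAt (ex t) (ex t τ * (-(t / τ) * Complex.I)) τ := by
  unfold ex
  have h1 : HasDerivAt (fun τ : ℝ => Real.log (2 * τ)) (1 / τ) τ := by
    have := ((hasDerivAt_id τ).const_mul 2).log (by simp; exact hτ.ne')
    simp only [id, mul_one] at this
    convert! this using 1
    field_simp
  have h2 : HasDerivAt (fun τ : ℝ => (((-(t * Real.log (2 * τ)) : ℝ) : ℂ) * Complex.I))
      (((-(t * (1 / τ)) : ℝ) : ℂ) * Complex.I) τ :=
    ((h1.const_mul t).neg.ofReal_comp).mul_const _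
  have h3 := h2.cexp
  convert! h3 using 1
  push_cast
  ring

lemma contDiffAt_ex (t : ℝ) {τ : ℝ} (hτ : 0 < τ) : ContDiffAt ℝ ∞ (ex t) τ := by
  unfold ex
  have h1 : ContDiffAt ℝ ∞ (fun τ : ℝ => Real.log (2 * τ)) τ :=
    (contDiffAt_const.mul contDiffAt_id).log (by simp; exact hτ.ne')
  have h2 : ContDiffAt ℝ ∞ (fun τ : ℝ => (((-(t * Real.log (2 * τ)) : ℝ) : ℂ))) τ :=
    Complex.ofRealCLM.contDiff.contDiffAt.comp τ (contDiffAt_const.mul h1).neg
  exact (h2.mul contDiffAt_const).cexp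

variable {V : ℝ → ℂ} {a b : ℝ}

lemma Nice.eventually_zero (H : Nice V a b) {x : ℝ} (hx : x < a) : ∀ᶠ y in 𝓝 x, V y = 0 := by
  filter_upwards [Iio_mem_nhds hx] with y hy
  exact H.eq_zero_of_le hy

lemma Nice.twd (H : Nice V a b) (t : ℝ) : Nice (JB.twd V t) a b where
  smooth := by
    rw [contDiff_iff_contDiffAt]
    intro x
    rcases lt_or_ge x a with hx | hx
    · have : JB.twd V t =ᶠ[𝓝 x] fun _ => 0 := by
        filter_upwards [Nice.eventually_zero H hx] with y hy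
        unfold JB.twd; rw [hy, zero_mul]
      exact contDiffAt_const.congr_of_eventuallyEq this
    · exact H.smooth.contDiffAt.mul (contDiffAt_ex t (H.pos.trans_le hx))
  pos := H.pos
  le := H.le
  supp := fun x hx => by unfold JB.twd; rw [H.supp x hx, zero_mul]

/-- `(τ V)'` -/
noncomputable def E1 (V : ℝ → ℂ) (τ : ℝ) : ℂ := V τ + τ * deriv V τ

lemma Nice.E1 (H : Nice V a b) : Nice (E1 V) a b where
  smooth := by
    have h1 : ContDiff ℝ ∞ (deriv V) := (contDiff_infty_iff_deriv.1 H.smooth).2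
    unfold JB.E1
    exact H.smooth.add (Complex.ofRealCLM.contDiff.mul h1)
  pos := H.pos
  le := H.le
  supp := fun x hx => by
    have h1 : ∀ᶠ y in 𝓝 x, V y = 0 := by
      filter_upwards [isClosed_Icc.isOpen_compl.mem_nhds hx] with y hy
      exact H.supp y hy
    have h2 : V =ᶠ[𝓝 x] fun _ => 0 := h1
    unfold JB.E1
    rw [H.supp x hx, h2.deriv_eq]
    simp

lemma Nice.hasDerivAt_mul_twd (H : Nice V a b) (t τ : ℝ) :
    HasDerivAt (fun τ : ℝ => (τ : ℂ) * JB.twd V t τ)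
      (JB.twd (JB.E1 V) t τ - t * Complex.I * JB.twd V t τ) τ := by
  rcases lt_or_ge τ a with hx | hx
  · have h0 := Nice.eventually_zero H hx
    have h1 := Nice.eventually_zero (Nice.E1 H) hx
    have e : (fun τ : ℝ => (τ : ℂ) * JB.twd V t τ) =ᶠ[𝓝 τ] fun _ => 0 := by
      filter_upwards [h0] with y hy
      unfold JB.twd; rw [hy]; ring
    have e2 : JB.twd (JB.E1 V) t τ - t * Complex.I * JB.twd V t τ = 0 := by
      unfold JB.twd; rw [h0.self_of_nhds, h1.self_of_nhds]; ring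
    rw [e2]
    exact (hasDerivAt_const τ (0 : ℂ)).congr_of_eventuallyEq e
  · have hτ : 0 < τ := H.pos.trans_le hx
    have h1 : HasDerivAt V (deriv V τ) τ :=
      ((H.smooth.differentiable (by simp)) τ).hasDerivAt
    have h2 := (h1.mul (hasDerivAt_ex t hτ))
    have h3 := ((hasDerivAt_id τ).ofReal_comp).mul h2
    unfold JB.twd
    convert! h3 using 1
    have hc : (τ : ℂ) ≠ 0 := by exact_mod_cast hτ.ne'
    unfold JB.E1
    simp only [Pi.mul_apply, id]
    field_simp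
    push_cast
    ring

/-- the sine transform -/
noncomputable def S (h : ℝ → ℂ) (x : ℝ) : ℂ := ∫ τ, h τ * (Real.sin (x * τ) : ℂ)

lemma Nice.mul_Tf' (H : Nice V a b) (x : ℝ) : (x : ℂ) * Tf V x = S V x := H.mul_Tf x

lemma Nice.hasDerivAt_S (H : Nice V a b) (x : ℝ) :
    HasDerivAt (S V) (∫ τ, V τ * ((τ * Real.cos (x * τ) : ℝ) : ℂ)) x := by
  have hV := H.cont
  have key := hasDerivAt_integral_of_dominated_loc_of_deriv_le (μ := volume)
    (F := fun x τ => V τ * (Real.sin (x * τ) : ℂ))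
    (F' := fun x τ => V τ * ((τ * Real.cos (x * τ) : ℝ) : ℂ)) (x₀ := x)
    (bound := fun τ => ‖V τ‖ * |τ|) (s := univ) Filter.univ_mem
    (Eventually.of_forall fun y => by
      exact (by fun_prop : Continuous fun τ : ℝ => V τ * (Real.sin (y * τ) : ℂ)).aestronglyMeasurable)
    (by
      refine Continuous.integrable_of_hasCompactSupport (by fun_prop) ?_
      exact H.hcs.mul_right)
    (by exact (by fun_prop : Continuous fun τ : ℝ =>
      V τ * ((τ * Real.cos (x * τ) : ℝ) : ℂ)).aestronglyMeasurable)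
    (Eventually.of_forall fun τ y _ => by
      rw [norm_mul, Complex.norm_real, norm_mul]
      have : ‖Real.cos (y * τ)‖ ≤ 1 := Real.abs_cos_le_one _
      gcongr
      calc ‖τ‖ * ‖Real.cos (y * τ)‖ ≤ ‖τ‖ * 1 := by gcongr
        _ = |τ| := by rw [mul_one, Real.norm_eq_abs])
    (by
      refine Continuous.integrable_of_hasCompactSupport (by fun_prop) ?_
      exact H.hcs.norm.mul_right)
    (Eventually.of_forall fun τ y _ => by
      have h1 : HasDerivAt (fun y : ℝ => y * τ) τ y := by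
        simpa using (hasDerivAt_id y).mul_const τ
      have h2 := (h1.sin.ofReal_comp).const_mul (V τ)
      convert! h2 using 2
      push_cast; ring)
  exact key.2

/-- the Euler operator on the sine transform of a twisted function -/
lemma Nice.euler_S (H : Nice V a b) (t x : ℝ) :
    (x : ℂ) * (∫ τ, JB.twd V t τ * ((τ * Real.cos (x * τ) : ℝ) : ℂ)) =
      t * Complex.I * S (JB.twd V t) x - S (JB.twd (JB.E1 V) t) x := by
  have HT := Nice.twd H t
  have HE := Nice.twd (Nice.E1 H) t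
  have hc := HT.cont
  have hce := HE.cont
  have h1 := integral_mul_deriv_eq_deriv_mul_of_integrable
    (u := fun τ : ℝ => (τ : ℂ) * JB.twd V t τ)
    (u' := fun τ => JB.twd (JB.E1 V) t τ - t * Complex.I * JB.twd V t τ)
    (v := fun τ => (Real.sin (x * τ) : ℂ)) (v' := fun τ => ((x * Real.cos (x * τ) : ℝ) : ℂ))
    (fun τ _ => Nice.hasDerivAt_mul_twd H t τ)
    (fun τ _ => by
      have h1 : HasDerivAt (fun y : ℝ => x * y) x τ := by
        simpa using (hasDerivAt_id τ).const_mul x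
      have := h1.sin.ofReal_comp
      convert! this using 2
      ring)
    (by
      refine Continuous.integrable_of_hasCompactSupport
        (f := fun τ : ℝ => ((τ : ℂ) * JB.twd V t τ) * ((x * Real.cos (x * τ) : ℝ) : ℂ)) (by fun_prop) ?_
      exact (HT.hcs.mul_left).mul_right)
    (by
      refine Continuous.integrable_of_hasCompactSupport
        (f := fun τ : ℝ => (JB.twd (JB.E1 V) t τ - t * Complex.I * JB.twd V t τ) *
          (Real.sin (x * τ) : ℂ)) (by fun_prop) ?_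
      exact (HE.hcs.sub (HT.hcs.mul_left)).mul_right)
    (by
      refine Continuous.integrable_of_hasCompactSupport
        (f := fun τ : ℝ => ((τ : ℂ) * JB.twd V t τ) * (Real.sin (x * τ) : ℂ)) (by fun_prop) ?_
      exact (HT.hcs.mul_left).mul_right)
  have h2 : (x : ℂ) * (∫ τ, JB.twd V t τ * ((τ * Real.cos (x * τ) : ℝ) : ℂ)) =
      ∫ τ : ℝ, ((τ : ℂ) * JB.twd V t τ) * ((x * Real.cos (x * τ) : ℝ) : ℂ) := by
    rw [← integral_const_mul]
    congr 1
    funext τ
    push_cast; ring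
  rw [h2, h1]
  unfold S
  rw [← integral_const_mul, ← integral_sub, ← integral_neg]
  · congr 1
    funext τ
    ring
  · refine Continuous.integrable_of_hasCompactSupport (by fun_prop) ?_
    exact (HT.hcs.mul_right).mul_left
  · refine Continuous.integrable_of_hasCompactSupport (by fun_prop) ?_
    exact HE.hcs.mul_right

/-- `it G_t = G_t[(τV)'] + τ V_t` -/
lemma Nice.t_mul_Gf (H : Nice V a b) (t : ℝ) {τ : ℝ} (hτ : 0 ≤ τ) :
    t * Complex.I * Gf (JB.twd V t) τ = Gf (JB.twd (JB.E1 V) t) τ + τ * JB.twd V t τ := by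
  have HT := Nice.twd H t
  have HE := Nice.twd (Nice.E1 H) t
  have h1 := integral_Ioi_of_hasDerivAt_of_tendsto (a := τ) (m := 0)
    (f := fun τ : ℝ => (τ : ℂ) * JB.twd V t τ)
    (f' := fun τ => JB.twd (JB.E1 V) t τ - t * Complex.I * JB.twd V t τ)
    ((Nice.hasDerivAt_mul_twd H t τ).continuousAt.continuousWithinAt)
    (fun x _ => Nice.hasDerivAt_mul_twd H t x)
    ((HE.integrable.sub (HT.integrable.const_mul _)).integrableOn)
    (by
      apply tendsto_const_nhds.congr'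
      filter_upwards [eventually_gt_atTop b] with x hx
      rw [HT.eq_zero_of_ge hx, mul_zero])
  rw [integral_sub HE.integrable.integrableOn (HT.integrable.const_mul _).integrableOn,
    integral_const_mul] at h1
  rw [HT.Gf_eq hτ, HE.Gf_eq hτ]
  linear_combination -h1

/-- `|G_t| ≤ C/(1+|t|)` uniformly. -/
lemma Nice.exists_Gf_le (H : Nice V a b) :
    ∃ C : ℝ, 0 ≤ C ∧ ∀ t τ : ℝ, ‖Gf (JB.twd V t) τ‖ ≤ C / (1 + |t|) := by
  have triv : ∀ {V : ℝ → ℂ} (_ : Nice V a b) (t τ : ℝ), 0 ≤ τ →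
      ‖Gf (JB.twd V t) τ‖ ≤ ∫ s, ‖V s‖ := by
    intro V H t τ hτ
    rw [(Nice.twd H t).Gf_eq hτ]
    calc ‖∫ s in Ioi τ, JB.twd V t s‖ ≤ ∫ s in Ioi τ, ‖JB.twd V t s‖ := norm_integral_le_integral_norm _
      _ = ∫ s in Ioi τ, ‖V s‖ := by simp only [norm_twd]
      _ ≤ ∫ s, ‖V s‖ := setIntegral_le_integral H.integrable.norm
          (Eventually.of_forall fun _ => norm_nonneg _)
  obtain ⟨M, hM⟩ := (H.hcs.mul_left (f := fun τ : ℝ => (τ : ℂ))).exists_bound_of_continuous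
    (by have := H.cont; fun_prop : Continuous fun τ : ℝ => (τ : ℂ) * V τ)
  have hM0 : 0 ≤ M := (norm_nonneg _).trans (hM 0)
  set A := ∫ s, ‖V s‖ with hA
  set A1 := ∫ s, ‖JB.E1 V s‖ with hA1
  have hA0 : 0 ≤ A := integral_nonneg fun _ => norm_nonneg _
  have hA10 : 0 ≤ A1 := integral_nonneg fun _ => norm_nonneg _
  refine ⟨A + (A1 + M), by positivity, ?_⟩
  have key : ∀ t τ : ℝ, 0 ≤ τ → ‖Gf (JB.twd V t) τ‖ ≤ (A + (A1 + M)) / (1 + |t|) := by
    intro t τ hτ
    rw [le_div_iff₀ (by positivity)]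
    have h1 := triv H t τ hτ
    have h2 : |t| * ‖Gf (JB.twd V t) τ‖ ≤ A1 + M := by
      have h3 : ‖(t : ℂ) * Complex.I * Gf (JB.twd V t) τ‖ = |t| * ‖Gf (JB.twd V t) τ‖ := by
        rw [norm_mul, norm_mul, Complex.norm_I, Complex.norm_real, Real.norm_eq_abs, mul_one]
      rw [← h3, Nice.t_mul_Gf H t hτ]
      refine (norm_add_le _ _).trans (add_le_add (triv (Nice.E1 H) t τ hτ) ?_)
      have := hM τ
      simp only [Pi.mul_apply, norm_mul] at this
      rwa [norm_mul, norm_twd]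
    nlinarith
  intro t τ
  rcases le_total 0 τ with h0 | h0
  · exact key t τ h0
  · rw [← Gf_neg]; exact key t _ (by linarith)

/-- Plancherel for `Tf` -/
lemma Nice.integral_Tf_sq (H : Nice V a b) :
    ∫ x, ‖Tf V x‖ ^ 2 = (Real.pi / 2) * ∫ τ, ‖Gf V τ‖ ^ 2 := by
  have h1 := SchwartzMap.integral_norm_sq_fourier H.Gs
  rw [← H.fourier_Gf] at h1
  have h2 := Measure.integral_comp_div (fun ξ : ℝ => ‖𝓕 (Gf V) ξ‖ ^ 2) (2 * Real.pi)
  rw [abs_of_pos (by positivity)] at h2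
  simp only [H.Gs_coe] at h1
  rw [h1, smul_eq_mul] at h2
  have h3 : ∀ x : ℝ, ‖Tf V x‖ ^ 2 = (1 / 4) * ‖𝓕 (Gf V) (x / (2 * Real.pi))‖ ^ 2 := by
    intro x
    unfold Tf
    rw [norm_mul]
    norm_num
    ring
  simp only [h3]
  rw [integral_const_mul, h2]
  ring

lemma Nice.S_eq (H : Nice V a b) (x : ℝ) :
    S V x = (Complex.I / 2) * 𝓕 (oddf V) (x / (2 * Real.pi)) := by
  have h1 := Real.fourier_deriv H.Gf_integrable (H.Gf_smooth.differentiable (by simp))
    (by rw [H.deriv_Gf]; exact H.oddf_integrable.neg)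
  have h2 := congrFun h1 (x / (2 * Real.pi))
  rw [H.deriv_Gf] at h2
  have h3 : 𝓕 (fun τ => -oddf V τ) (x / (2 * Real.pi)) = -𝓕 (oddf V) (x / (2 * Real.pi)) := by
    rw [Real.fourier_eq', Real.fourier_eq', ← integral_neg]
    congr 1
    funext v
    simp
  rw [h3] at h2
  rw [← Nice.mul_Tf' H]
  unfold Tf
  have hpi : (Real.pi : ℂ) ≠ 0 := by exact_mod_cast Real.pi_ne_zero
  have h5 : (2 * Real.pi * Complex.I * ((x / (2 * Real.pi) : ℝ) : ℂ)) = Complex.I * x := by
    push_cast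
    field_simp
  rw [smul_eq_mul, h5] at h2
  have hI : Complex.I * Complex.I = -1 := Complex.I_mul_I
  linear_combination (Complex.I / 2) * h2 + (x / 2 * 𝓕 (Gf V) (x / (2 * Real.pi))) * hI

/-- Plancherel for `S` -/
lemma Nice.integral_S_sq (H : Nice V a b) :
    ∫ x, ‖S V x‖ ^ 2 = (Real.pi / 2) * ∫ τ, ‖oddf V τ‖ ^ 2 := by
  have h0 : 𝓕 (oddf V) = ⇑(𝓕 (H.oddf_hcs.toSchwartzMap H.oddf_smooth) : SchwartzMap ℝ ℂ) := by
    rw [SchwartzMap.fourier_coe]; rfl
  have h1 := SchwartzMap.integral_norm_sq_fourier (H.oddf_hcs.toSchwartzMap H.oddf_smooth)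
  rw [← h0] at h1
  have h2 := Measure.integral_comp_div (fun ξ : ℝ => ‖𝓕 (oddf V) ξ‖ ^ 2) (2 * Real.pi)
  rw [abs_of_pos (by positivity)] at h2
  have h1' : ∫ ξ, ‖𝓕 (oddf V) ξ‖ ^ 2 = ∫ τ, ‖oddf V τ‖ ^ 2 := h1
  rw [h1', smul_eq_mul] at h2
  have h3 : ∀ x : ℝ, ‖S V x‖ ^ 2 = (1 / 4) * ‖𝓕 (oddf V) (x / (2 * Real.pi))‖ ^ 2 := by
    intro x
    rw [Nice.S_eq H, norm_mul, norm_div, Complex.norm_I]
    norm_num
    ring
  simp only [h3]
  rw [integral_const_mul, h2]
  ring

end Vale.Agent.P006.JB
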