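import Mathlib
import Vale.Agent.P006.JB.Twist

/-!
Block JB: norms of the twisted profiles, uniform in the twist.
-/

open MeasureTheory Set Filter
open scoped ENNReal FourierTransform ContDiff Topology

namespace Vale.Agent.P006.JB

open KER

variable {V : ℝ → ℂ} {a b : ℝ}

/-- the two `L²` bounds -/
structure L2pair (T : ℝ → ℂ) (A Y : ℝ) : Prop where
  cont : Continuous T
  int0 : Integrable fun x => ‖T x‖ ^ 2
  int2 : Integrable fun x : ℝ => ‖(x : ℂ) * T x‖ ^ 2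
  le0 : ∫ x, ‖T x‖ ^ 2 ≤ A / Y ^ 2
  le2 : ∫ x : ℝ, ‖(x : ℂ) * T x‖ ^ 2 ≤ A

lemma L2pair.mono {T : ℝ → ℂ} {A A' Y : ℝ} (hY : 1 ≤ Y) (h : L2pair T A Y) (hA : A ≤ A') :
    L2pair T A' Y where
  cont := h.cont
  int0 := h.int0
  int2 := h.int2
  le0 := h.le0.trans (by gcongr)
  le2 := h.le2.trans hA

section
variable {T : ℝ → ℂ} {A Y : ℝ}

lemma integrableOn_rpow_Ioc {c : ℝ} (hc : 0 ≤ c) (p : ℝ) (hp : 0 ≤ p) :
    IntegrableOn (fun x : ℝ => x ^ p) (Ioc 0 c) := by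
  have := (intervalIntegral.intervalIntegrable_rpow' (a := 0) (b := c) (r := p) (by linarith))
  rwa [intervalIntegrable_iff_integrableOn_Ioc_of_le hc] at this

/-- bound of a weighted `L¹` norm by the two `L²` norms -/
lemma L2pair.main (hY : 1 ≤ Y) (h : L2pair T A Y) (p : ℝ) (hp0 : 0 ≤ p) (hp : p ≤ 1 / 3) :
    IntegrableOn (fun x : ℝ => x ^ p * ‖T x‖) (Ioi 0) ∧
    ∫ x in Ioi (0 : ℝ), x ^ p * ‖T x‖ ≤ (A + 2) * Y ^ (p - 1 / 2) := by
  have hY0 : 0 < Y := by linarith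
  have hTc := h.cont
  set l : ℝ := Y ^ (p + 3 / 2) with hl
  set m : ℝ := Y ^ (p - 1 / 2) with hm
  have hl0 : 0 < l := Real.rpow_pos_of_pos hY0 _
  have hm0 : 0 < m := Real.rpow_pos_of_pos hY0 _
  have hlm : l = m * Y ^ 2 := by
    rw [hl, hm, ← Real.rpow_natCast, ← Real.rpow_add hY0]; congr 1; push_cast; ring
  -- pointwise bounds
  have b1 : ∀ x ∈ Ioc (0 : ℝ) Y, x ^ p * ‖T x‖ ≤ (1 / 2) * (l * ‖T x‖ ^ 2 + x ^ (2 * p) / l) := by
    intro x hx
    have e : x ^ (2 * p) = (x ^ p) ^ 2 := by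
      rw [← Real.rpow_natCast, ← Real.rpow_mul hx.1.le]; congr 1; push_cast; ring
    rw [e]
    have h1 : 0 ≤ (l * ‖T x‖ - x ^ p) ^ 2 / l := by positivity
    have h2 : (l * ‖T x‖ - x ^ p) ^ 2 / l = l * ‖T x‖ ^ 2 - 2 * (x ^ p * ‖T x‖) + (x ^ p) ^ 2 / l := by
      field_simp; ring
    linarith
  have b2 : ∀ x ∈ Ioi Y, x ^ p * ‖T x‖ ≤
      (1 / 2) * (m * ‖(x : ℂ) * T x‖ ^ 2 + x ^ (2 * p - 2) / m) := by
    intro x hx
    have hx0 : 0 < x := hY0.trans hx
    have e : x ^ (2 * p - 2) = (x ^ (p - 1)) ^ 2 := by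
      rw [← Real.rpow_natCast, ← Real.rpow_mul hx0.le]; congr 1; push_cast; ring
    have e2 : x ^ p * ‖T x‖ = x ^ (p - 1) * (x * ‖T x‖) := by
      rw [Real.rpow_sub_one hx0.ne']; field_simp
    rw [e, e2, norm_mul, Complex.norm_real, Real.norm_of_nonneg hx0.le]
    have h1 : 0 ≤ (m * (x * ‖T x‖) - x ^ (p - 1)) ^ 2 / m := by positivity
    have h2 : (m * (x * ‖T x‖) - x ^ (p - 1)) ^ 2 / m =
        m * (x * ‖T x‖) ^ 2 - 2 * (x ^ (p - 1) * (x * ‖T x‖)) + (x ^ (p - 1)) ^ 2 / m := by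
      field_simp; ring
    linarith
  -- integrable majorants
  have i1 : IntegrableOn (fun x => (1 / 2) * (l * ‖T x‖ ^ 2 + x ^ (2 * p) / l)) (Ioc 0 Y) :=
    ((h.int0.integrableOn.const_mul l).add
      ((integrableOn_rpow_Ioc hY0.le (2 * p) (by linarith)).div_const l)).const_mul _
  have i2 : IntegrableOn (fun x : ℝ => (1 / 2) * (m * ‖(x : ℂ) * T x‖ ^ 2 + x ^ (2 * p - 2) / m)) (Ioi Y) :=
    ((h.int2.integrableOn.const_mul m).add
      ((integrableOn_Ioi_rpow_of_lt (by linarith) hY0).div_const m)).const_mul _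
  have hmeas : AEStronglyMeasurable (fun x : ℝ => x ^ p * ‖T x‖) volume :=
    (by fun_prop : Measurable fun x : ℝ => x ^ p * ‖T x‖).aestronglyMeasurable
  have j1 : IntegrableOn (fun x : ℝ => x ^ p * ‖T x‖) (Ioc 0 Y) := by
    refine i1.mono' hmeas.restrict ?_
    refine (ae_restrict_mem measurableSet_Ioc).mono fun x hx => ?_
    rw [Real.norm_of_nonneg (mul_nonneg (Real.rpow_nonneg hx.1.le _) (norm_nonneg _))]
    exact b1 x hx
  have j2 : IntegrableOn (fun x : ℝ => x ^ p * ‖T x‖) (Ioi Y) := by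
    refine i2.mono' hmeas.restrict ?_
    refine (ae_restrict_mem measurableSet_Ioi).mono fun x hx => ?_
    rw [Real.norm_of_nonneg (mul_nonneg (Real.rpow_nonneg (hY0.trans hx).le _) (norm_nonneg _))]
    exact b2 x hx
  have hun : Ioc 0 Y ∪ Ioi Y = Ioi (0 : ℝ) := Ioc_union_Ioi_eq_Ioi hY0.le
  have hA0 : 0 ≤ A := le_trans (integral_nonneg fun _ => by positivity) h.le2
  refine ⟨by rw [← hun]; exact j1.union j2, ?_⟩
  rw [← hun, setIntegral_union (by
    rw [Set.disjoint_left]; intro x hx hx'; exact absurd hx.2 (not_le.2 hx')) measurableSet_Ioi j1 j2]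
  have c1 : ∫ x in Ioc (0 : ℝ) Y, x ^ p * ‖T x‖ ≤ (1 / 2) * (A + 1) * m := by
    calc ∫ x in Ioc (0 : ℝ) Y, x ^ p * ‖T x‖
        ≤ ∫ x in Ioc (0 : ℝ) Y, (1 / 2) * (l * ‖T x‖ ^ 2 + x ^ (2 * p) / l) :=
          setIntegral_mono_on j1 i1 measurableSet_Ioc b1
      _ = (1 / 2) * (l * (∫ x in Ioc (0 : ℝ) Y, ‖T x‖ ^ 2) + (∫ x in Ioc (0 : ℝ) Y, x ^ (2 * p)) / l) := by
          rw [integral_const_mul, integral_add, integral_const_mul, integral_div]
          · exact h.int0.integrableOn.const_mul l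
          · exact (integrableOn_rpow_Ioc hY0.le (2 * p) (by linarith)).div_const l
      _ ≤ (1 / 2) * (l * (A / Y ^ 2) + (Y ^ (2 * p + 1)) / l) := by
          have s1 : ∫ x in Ioc (0 : ℝ) Y, ‖T x‖ ^ 2 ≤ A / Y ^ 2 :=
            (setIntegral_le_integral h.int0 (Eventually.of_forall fun _ => by positivity)).trans h.le0
          have s2 : ∫ x in Ioc (0 : ℝ) Y, x ^ (2 * p) ≤ Y ^ (2 * p + 1) := by
            rw [← intervalIntegral.integral_of_le hY0.le, integral_rpow (Or.inl (by linarith)),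
              Real.zero_rpow (by linarith), sub_zero]
            apply div_le_self (by positivity) (by linarith)
          gcongr
      _ = (1 / 2) * (A + 1) * m := by
          have e1 : Y ^ (2 * p + 1) = l * m := by
            rw [hl, hm, ← Real.rpow_add hY0]; congr 1; ring
          rw [e1, hlm]
          field_simp
  have c2 : ∫ x in Ioi Y, x ^ p * ‖T x‖ ≤ (1 / 2) * (A + 3) * m := by
    calc ∫ x in Ioi Y, x ^ p * ‖T x‖
        ≤ ∫ x in Ioi Y, (1 / 2) * (m * ‖(x : ℂ) * T x‖ ^ 2 + x ^ (2 * p - 2) / m) :=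
          setIntegral_mono_on j2 i2 measurableSet_Ioi b2
      _ = (1 / 2) * (m * (∫ x in Ioi Y, ‖(x : ℂ) * T x‖ ^ 2) + (∫ x in Ioi Y, x ^ (2 * p - 2)) / m) := by
          rw [integral_const_mul, integral_add, integral_const_mul, integral_div]
          · exact h.int2.integrableOn.const_mul m
          · exact (integrableOn_Ioi_rpow_of_lt (by linarith) hY0).div_const m
      _ ≤ (1 / 2) * (m * A + (3 * Y ^ (2 * p - 1)) / m) := by
          have s1 : ∫ x in Ioi Y, ‖(x : ℂ) * T x‖ ^ 2 ≤ A :=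
            (setIntegral_le_integral h.int2 (Eventually.of_forall fun _ => by positivity)).trans h.le2
          have s2 : ∫ x in Ioi Y, x ^ (2 * p - 2) ≤ 3 * Y ^ (2 * p - 1) := by
            rw [integral_Ioi_rpow_of_lt (by linarith) hY0]
            have e3 : 2 * p - 2 + 1 = 2 * p - 1 := by ring
            rw [e3, neg_div, ← div_neg, neg_sub, div_le_iff₀ (by linarith)]
            have : 0 < Y ^ (2 * p - 1) := Real.rpow_pos_of_pos hY0 _
            nlinarith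
          gcongr
      _ = (1 / 2) * (A + 3) * m := by
          have e1 : Y ^ (2 * p - 1) = m * m := by
            rw [hm, ← Real.rpow_add hY0]; congr 1; ring
          rw [e1]
          field_simp
  nlinarith

lemma L2pair.energy (hY : 1 ≤ Y) (h : L2pair T A Y) :
    IntegrableOn (fun x : ℝ => x * ‖T x‖ ^ 2) (Ioi 0) ∧
    ∫ x in Ioi (0 : ℝ), x * ‖T x‖ ^ 2 ≤ A / Y := by
  have hY0 : 0 < Y := by linarith
  have hTc := h.cont
  have b1 : ∀ x ∈ Ioi (0 : ℝ), x * ‖T x‖ ^ 2 ≤ (1 / 2) * (Y * ‖T x‖ ^ 2 + ‖(x : ℂ) * T x‖ ^ 2 / Y) := by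
    intro x hx
    have hx0 : (0 : ℝ) < x := hx
    rw [norm_mul, Complex.norm_real, Real.norm_of_nonneg hx0.le]
    have h1 : 0 ≤ (Y * ‖T x‖ - x * ‖T x‖) ^ 2 / Y := by positivity
    have h2 : (Y * ‖T x‖ - x * ‖T x‖) ^ 2 / Y = Y * ‖T x‖ ^ 2 - 2 * (x * ‖T x‖ ^ 2) + (x * ‖T x‖) ^ 2 / Y := by
      field_simp; ring
    linarith
  have i1 : Integrable (fun x : ℝ => (1 / 2) * (Y * ‖T x‖ ^ 2 + ‖(x : ℂ) * T x‖ ^ 2 / Y)) :=
    ((h.int0.const_mul Y).add (h.int2.div_const Y)).const_mul _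
  have j1 : IntegrableOn (fun x : ℝ => x * ‖T x‖ ^ 2) (Ioi 0) := by
    refine i1.integrableOn.mono' (by fun_prop : Continuous fun x : ℝ => x * ‖T x‖ ^ 2).aestronglyMeasurable.restrict ?_
    refine (ae_restrict_mem measurableSet_Ioi).mono fun x hx => ?_
    have hx0 : (0 : ℝ) < x := hx
    rw [Real.norm_of_nonneg (by positivity)]
    exact b1 x hx
  refine ⟨j1, ?_⟩
  calc ∫ x in Ioi (0 : ℝ), x * ‖T x‖ ^ 2
      ≤ ∫ x in Ioi (0 : ℝ), (1 / 2) * (Y * ‖T x‖ ^ 2 + ‖(x : ℂ) * T x‖ ^ 2 / Y) :=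
        setIntegral_mono_on j1 i1.integrableOn measurableSet_Ioi b1
    _ ≤ ∫ x : ℝ, (1 / 2) * (Y * ‖T x‖ ^ 2 + ‖(x : ℂ) * T x‖ ^ 2 / Y) :=
        setIntegral_le_integral i1 (Eventually.of_forall fun _ => by positivity)
    _ = (1 / 2) * (Y * (∫ x, ‖T x‖ ^ 2) + (∫ x : ℝ, ‖(x : ℂ) * T x‖ ^ 2) / Y) := by
        rw [integral_const_mul, integral_add (h.int0.const_mul Y) (h.int2.div_const Y),
          integral_const_mul, integral_div]
    _ ≤ (1 / 2) * (Y * (A / Y ^ 2) + A / Y) := by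
        have := h.le0; have := h.le2; gcongr
    _ = A / Y := by field_simp; ring

end

/-- square integrability of Schwartz type functions -/
lemma Nice.int_Tf_sq (H : Nice V a b) : Integrable fun x => ‖Tf V x‖ ^ 2 := by
  have h1 := H.integrable_Tf.norm
  have hc := H.Tf_cont
  have hT := H.fourier_Gf
  obtain ⟨C, hC⟩ : ∃ C, ∀ x, ‖Tf V x‖ ≤ C := by
    refine ⟨(1 / 2) * (SchwartzMap.seminorm ℝ 0 0 (𝓕 H.Gs)), fun x => ?_⟩
    unfold Tf
    rw [norm_mul, hT]
    have := SchwartzMap.norm_le_seminorm ℝ (𝓕 H.Gs : SchwartzMap ℝ ℂ) (x / (2 * Real.pi))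
    norm_num
    linarith
  refine (h1.const_mul C).mono' (by fun_prop : Continuous fun x => ‖Tf V x‖ ^ 2).aestronglyMeasurable
    (Eventually.of_forall fun x => ?_)
  rw [Real.norm_of_nonneg (by positivity), sq]
  have := hC x
  gcongr

lemma Nice.int_S_sq (H : Nice V a b) : Integrable fun x : ℝ => ‖(x : ℂ) * Tf V x‖ ^ 2 := by
  have h1 := H.integrable_mul_Tf.norm
  have hc := H.Tf_cont
  obtain ⟨C, hC⟩ : ∃ C, ∀ x : ℝ, ‖(x : ℂ) * Tf V x‖ ≤ C := by
    refine ⟨∫ τ, ‖V τ‖, fun x => ?_⟩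
    rw [Nice.mul_Tf' H]
    unfold S
    refine (norm_integral_le_integral_norm _).trans (integral_mono_of_nonneg
      (Eventually.of_forall fun _ => norm_nonneg _) H.integrable.norm
      (Eventually.of_forall fun τ => ?_))
    simp only [norm_mul, Complex.norm_real]
    have : ‖Real.sin (x * τ)‖ ≤ 1 := Real.abs_sin_le_one _
    nlinarith [norm_nonneg (V τ)]
  refine (h1.const_mul C).mono'
    (by fun_prop : Continuous fun x : ℝ => ‖(x : ℂ) * Tf V x‖ ^ 2).aestronglyMeasurable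
    (Eventually.of_forall fun x => ?_)
  rw [Real.norm_of_nonneg (by positivity), sq]
  have := hC x
  gcongr

/-- **the two `L²` bounds for twisted profiles, uniform in `t`** -/
theorem Nice.exists_L2pair (H : Nice V a b) :
    ∃ A : ℝ, 0 ≤ A ∧ ∀ t : ℝ, L2pair (Tf (JB.twd V t)) A (1 + |t|) := by
  obtain ⟨C, hC0, hC⟩ := Nice.exists_Gf_le H
  have hb : 0 < b := H.pos.trans_le H.le
  set A1 : ℝ := (Real.pi / 2) * (2 * b * C ^ 2) with hA1
  set A2 : ℝ := (Real.pi / 2) * (4 * ∫ τ, ‖V τ‖ ^ 2) with hA2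
  have hA1' : 0 ≤ A1 := by positivity
  have hI : 0 ≤ ∫ τ, ‖V τ‖ ^ 2 := integral_nonneg fun _ => by positivity
  have hA2' : 0 ≤ A2 := by positivity
  refine ⟨A1 + A2, by positivity, fun t => ?_⟩
  have HT := Nice.twd H t
  have hY0 : 0 < 1 + |t| := by positivity
  refine ⟨HT.Tf_cont, Nice.int_Tf_sq HT, Nice.int_S_sq HT, ?_, ?_⟩
  · rw [Nice.integral_Tf_sq HT]
    have h1 : ∫ τ, ‖Gf (JB.twd V t) τ‖ ^ 2 ≤ 2 * b * (C / (1 + |t|)) ^ 2 := by
      have e : ∫ τ, ‖Gf (JB.twd V t) τ‖ ^ 2 = ∫ τ in Icc (-b) b, ‖Gf (JB.twd V t) τ‖ ^ 2 := by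
        symm
        apply setIntegral_eq_integral_of_forall_compl_eq_zero
        intro x hx
        rw [HT.Gf_zero_of_lt]
        · simp
        · by_contra hcon
          exact hx (abs_le.1 (not_lt.1 hcon))
      rw [e]
      calc ∫ τ in Icc (-b) b, ‖Gf (JB.twd V t) τ‖ ^ 2
          ≤ ∫ τ in Icc (-b) b, (C / (1 + |t|)) ^ 2 := by
            apply setIntegral_mono_on
            · have := HT.Gf_smooth.continuous
              exact (by fun_prop : Continuous fun τ => ‖Gf (JB.twd V t) τ‖ ^ 2).integrableOn_Icc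
            · simp
            · exact measurableSet_Icc
            · intro x _
              have := hC t x
              gcongr
        _ = 2 * b * (C / (1 + |t|)) ^ 2 := by
            rw [setIntegral_const, smul_eq_mul, measureReal_def, Real.volume_Icc,
              ENNReal.toReal_ofReal (by linarith)]
            ring
    calc (Real.pi / 2) * ∫ τ, ‖Gf (JB.twd V t) τ‖ ^ 2
        ≤ (Real.pi / 2) * (2 * b * (C / (1 + |t|)) ^ 2) := by gcongr
      _ = A1 / (1 + |t|) ^ 2 := by rw [hA1]; field_simp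
      _ ≤ (A1 + A2) / (1 + |t|) ^ 2 := by gcongr; linarith
  · have e : (fun x : ℝ => ‖(x : ℂ) * Tf (JB.twd V t) x‖ ^ 2) = fun x => ‖S (JB.twd V t) x‖ ^ 2 := by
      funext x; rw [Nice.mul_Tf' HT]
    rw [e, Nice.integral_S_sq HT]
    have h1 : ∫ τ, ‖oddf (JB.twd V t) τ‖ ^ 2 ≤ 4 * ∫ τ, ‖V τ‖ ^ 2 := by
      have hVi : Integrable fun τ => ‖V τ‖ ^ 2 := by
        have := H.cont
        refine Continuous.integrable_of_hasCompactSupport (by fun_prop) ?_
        exact HasCompactSupport.intro isCompact_Icc (fun x hx => by rw [H.supp x hx]; simp)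
      calc ∫ τ, ‖oddf (JB.twd V t) τ‖ ^ 2 ≤ ∫ τ, (2 * ‖V τ‖ ^ 2 + 2 * ‖V (-τ)‖ ^ 2) := by
            apply integral_mono_of_nonneg (Eventually.of_forall fun _ => by positivity)
              ((hVi.const_mul 2).add (hVi.comp_neg.const_mul 2))
            refine Eventually.of_forall fun τ => ?_
            simp only [oddf]
            have h1 := norm_sub_le (JB.twd V t τ) (JB.twd V t (-τ))
            rw [norm_twd, norm_twd] at h1
            calc ‖JB.twd V t τ - JB.twd V t (-τ)‖ ^ 2 ≤ (‖V τ‖ + ‖V (-τ)‖) ^ 2 := by gcongr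
              _ ≤ 2 * ‖V τ‖ ^ 2 + 2 * ‖V (-τ)‖ ^ 2 := by nlinarith [sq_nonneg (‖V τ‖ - ‖V (-τ)‖)]
        _ = 4 * ∫ τ, ‖V τ‖ ^ 2 := by
            rw [integral_add (hVi.const_mul 2) (hVi.comp_neg.const_mul 2), integral_const_mul,
              integral_const_mul, integral_neg_eq_self (fun τ => ‖V τ‖ ^ 2) volume]
            ring
    calc (Real.pi / 2) * ∫ τ, ‖oddf (JB.twd V t) τ‖ ^ 2
        ≤ (Real.pi / 2) * (4 * ∫ τ, ‖V τ‖ ^ 2) := by gcongr
      _ = A2 := rfl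
      _ ≤ A1 + A2 := by linarith

end Vale.Agent.P006.JB
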