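import Mathlib
import Vale.Agent.P006.JB.Norms
import Vale.Agent.P006.JB.ConvL1
import Vale.Agent.P006.GRAM.Class

/-!
Block JB: the profiles `Phi (tw U t) K B` as elements of the class `Dc`, their norms, and the
correlation data for `f - c g`.
-/

open MeasureTheory Set Filter
open scoped ENNReal FourierTransform ContDiff Topology ComplexConjugate SchwartzMap

namespace Vale.Agent.P006.JB

open KER

lemma schwartz_decay (f : 𝓢(ℝ, ℂ)) (k : ℕ) : ∃ C : ℝ, 0 ≤ C ∧ ∀ x, (1 + ‖x‖) ^ k * ‖f x‖ ≤ C := by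
  refine ⟨2 ^ k * (Finset.Iic (k, 0)).sup (fun m => SchwartzMap.seminorm ℝ m.1 m.2) f,
    by positivity, fun z => ?_⟩
  have := SchwartzMap.one_add_le_sup_seminorm_apply (𝕜 := ℝ) (m := (k, 0)) (le_refl k)
    (le_refl 0) f z
  simpa using this

lemma schwartz_scale (f : 𝓢(ℝ, ℂ)) (k : ℕ) {β : ℝ} (hβ : 0 < β) (A : ℂ) :
    ∃ C : ℝ, 0 ≤ C ∧ ∀ x : ℝ, 0 ≤ x → (1 + x) ^ k * ‖A * f (β * x)‖ ≤ C := by
  obtain ⟨C, hC0, hC⟩ := schwartz_decay f k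
  refine ⟨(1 + 1 / β) ^ k * (‖A‖ * C), by positivity, fun x hx => ?_⟩
  have h1 := hC (β * x)
  rw [Real.norm_of_nonneg (by positivity)] at h1
  have h2 : 1 + x ≤ (1 + 1 / β) * (1 + β * x) := by
    have : (1 + 1 / β) * (1 + β * x) = 1 + β * x + 1 / β + x := by field_simp; ring
    rw [this]
    have : 0 ≤ β * x := by positivity
    have : 0 < 1 / β := by positivity
    linarith
  calc (1 + x) ^ k * ‖A * f (β * x)‖ ≤ ((1 + 1 / β) * (1 + β * x)) ^ k * ‖A * f (β * x)‖ := by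
        gcongr
    _ = (1 + 1 / β) ^ k * (‖A‖ * ((1 + β * x) ^ k * ‖f (β * x)‖)) := by
        rw [mul_pow, norm_mul]; ring
    _ ≤ (1 + 1 / β) ^ k * (‖A‖ * C) := by gcongr

section
variable {h : ℝ → ℂ} {a b : ℝ}

/-- `x ↦ A T(αx)` -/
noncomputable def sc (h : ℝ → ℂ) (A : ℂ) (α x : ℝ) : ℂ := A * Tf h (α * x)

lemma sc_eq (H : Nice h a b) (A : ℂ) (α x : ℝ) :
    sc h A α x = (A / 2) * (𝓕 H.Gs : 𝓢(ℝ, ℂ)) ((α / (2 * Real.pi)) * x) := by
  unfold sc Tf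
  rw [H.fourier_Gf, show α * x / (2 * Real.pi) = α / (2 * Real.pi) * x by ring]
  ring

lemma hasDerivAt_sc (H : Nice h a b) (A : ℂ) (α x : ℝ) :
    HasDerivAt (sc h A α) ((A / 2 * (α / (2 * Real.pi) : ℝ)) *
      (SchwartzMap.derivCLM ℝ ℂ (𝓕 H.Gs : 𝓢(ℝ, ℂ))) ((α / (2 * Real.pi)) * x)) x := by
  have e : sc h A α = fun x => (A / 2) * (𝓕 H.Gs : 𝓢(ℝ, ℂ)) ((α / (2 * Real.pi)) * x) :=
    funext fun x => sc_eq H A α x
  rw [e, SchwartzMap.derivCLM_apply]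
  have h1 : HasDerivAt (𝓕 H.Gs : 𝓢(ℝ, ℂ)) (deriv (𝓕 H.Gs : 𝓢(ℝ, ℂ)) ((α / (2 * Real.pi)) * x))
      ((α / (2 * Real.pi)) * x) :=
    ((𝓕 H.Gs : 𝓢(ℝ, ℂ)).differentiable _).hasDerivAt
  have h2 : HasDerivAt (fun x : ℝ => (α / (2 * Real.pi)) * x) (α / (2 * Real.pi)) x := by
    simpa using (hasDerivAt_id x).const_mul (α / (2 * Real.pi))
  have h3 := (h1.scomp x h2).const_mul (A / 2)
  convert! h3 using 1
  rw [Complex.real_smul]
  ring

/-- `sc` belongs to the class `Dc` -/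
lemma exists_Dc_sc (H : Nice h a b) (A : ℂ) {α : ℝ} (hα : 0 < α) :
    ∃ C : ℝ, Dc (sc h A α) (deriv (sc h A α)) C := by
  have hβ : 0 < α / (2 * Real.pi) := by positivity
  obtain ⟨C1, hC1, h1⟩ := schwartz_scale (𝓕 H.Gs : 𝓢(ℝ, ℂ)) 4 hβ (A / 2)
  obtain ⟨C2, hC2, h2⟩ := schwartz_scale (SchwartzMap.derivCLM ℝ ℂ (𝓕 H.Gs : 𝓢(ℝ, ℂ))) 5 hβ
    (A / 2 * (α / (2 * Real.pi) : ℝ))
  have hd : deriv (sc h A α) = fun x => (A / 2 * (α / (2 * Real.pi) : ℝ)) *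
      (SchwartzMap.derivCLM ℝ ℂ (𝓕 H.Gs : 𝓢(ℝ, ℂ))) ((α / (2 * Real.pi)) * x) :=
    funext fun x => (hasDerivAt_sc H A α x).deriv
  refine ⟨max C1 C2, ⟨?_, ?_⟩, ?_, ?_, ?_⟩
  · have := H.Tf_cont
    unfold sc; fun_prop
  · intro x hx
    rw [sc_eq H]
    exact (h1 x hx).trans (le_max_left _ _)
  · rw [hd]
    have := (SchwartzMap.derivCLM ℝ ℂ (𝓕 H.Gs : 𝓢(ℝ, ℂ))).continuous
    fun_prop
  · intro x _
    rw [hd]
    exact hasDerivAt_sc H A α x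
  · intro x hx
    rw [hd]
    exact (h2 x hx).trans (le_max_right _ _)

/-- Euler relation -/
lemma euler_sc (H : Nice h a b) (t : ℝ) (A : ℂ) {α : ℝ} (hα : 0 < α) {x : ℝ} (hx : 0 < x) :
    (x : ℂ) * deriv (sc (JB.twd h t) A α) x = (t * Complex.I - 1) * sc (JB.twd h t) A α x +
      sc (JB.twd (JB.E1 h) t) (-A) α x := by
  have HT := Nice.twd H t
  have HE := Nice.twd (Nice.E1 H) t
  -- derivative of S at y = αx
  set y : ℝ := α * x with hy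
  have hy0 : 0 < y := by positivity
  have h1 := Nice.hasDerivAt_S HT y
  have h2 := Nice.euler_S H t y
  -- x T x = S
  have hT : HasDerivAt (Tf (JB.twd h t)) (deriv (Tf (JB.twd h t)) y) y :=
    ((HT.Tf_smooth.differentiable (by simp)) y).hasDerivAt
  have h3 : HasDerivAt (fun z : ℝ => (z : ℂ) * Tf (JB.twd h t) z)
      (((1 : ℝ) : ℂ) * Tf (JB.twd h t) y + (y : ℂ) * deriv (Tf (JB.twd h t)) y) y :=
    ((hasDerivAt_id y).ofReal_comp).mul hT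
  have h4 : (fun z : ℝ => (z : ℂ) * Tf (JB.twd h t) z) = S (JB.twd h t) :=
    funext fun z => Nice.mul_Tf' HT z
  rw [h4] at h3
  have h5 := h1.unique h3
  rw [h5] at h2
  have e1 := Nice.mul_Tf' HT y
  have e2 := Nice.mul_Tf' HE y
  rw [← e1, ← e2] at h2
  have hyc : (y : ℂ) ≠ 0 := by exact_mod_cast hy0.ne'
  have h6 : (y : ℂ) * deriv (Tf (JB.twd h t)) y = (t * Complex.I - 1) * Tf (JB.twd h t) y -
      Tf (JB.twd (JB.E1 h) t) y := by
    apply mul_left_cancel₀ hyc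
    push_cast at h2
    linear_combination h2
  have h7 : deriv (sc (JB.twd h t) A α) x = A * (α * deriv (Tf (JB.twd h t)) y) := by
    have h8 : HasDerivAt (fun x : ℝ => α * x) α x := by
      simpa using (hasDerivAt_id x).const_mul α
    have h9 := (hT.scomp x h8).const_mul A
    have h10 : HasDerivAt (sc (JB.twd h t) A α) (A * (α • deriv (Tf (JB.twd h t)) y)) x := h9
    rw [h10.deriv, Complex.real_smul]
  rw [h7]
  unfold sc
  rw [← hy]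
  have h8 : (x : ℂ) * (A * (α * deriv (Tf (JB.twd h t)) y)) =
      A * ((y : ℂ) * deriv (Tf (JB.twd h t)) y) := by
    rw [hy]; push_cast; ring
  rw [h8, h6]
  ring

/-- scaling of the weighted norm -/
lemma nw_sc (h : ℝ → ℂ) (A : ℂ) {α : ℝ} (hα : 0 < α) (p : ℝ) :
    nw p (sc h A α) = ‖A‖ * (α ^ p * α)⁻¹ * nw p (Tf h) := by
  unfold nw sc
  have e : ∀ x ∈ Ioi (0 : ℝ), x ^ p * ‖A * Tf h (α * x)‖ =
      (‖A‖ * (α ^ p)⁻¹) * ((α * x) ^ p * ‖Tf h (α * x)‖) := by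
    intro x hx
    have hx0 : (0 : ℝ) < x := hx
    rw [Real.mul_rpow hα.le hx0.le, norm_mul]
    have : α ^ p ≠ 0 := (Real.rpow_pos_of_pos hα p).ne'
    field_simp
  rw [setIntegral_congr_fun measurableSet_Ioi e, integral_const_mul,
    integral_comp_mul_left_Ioi (fun u : ℝ => u ^ p * ‖Tf h u‖) 0 hα, mul_zero, smul_eq_mul, mul_inv]
  ring

lemma Phi_eq_sc (W : ℝ → ℂ) (K B : ℝ) :
    Phi W K B = sc (hW W) ((K ^ 3 / Real.pi ^ 2 : ℝ) : ℂ) (K / B) := by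
  funext v
  unfold Phi sc
  rw [show K * v / B = K / B * v by ring]

end

end Vale.Agent.P006.JB
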