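import Mathlib
import Vale.Agent.P006.JB.PhiJ

/-!
Block JB: the final bound for the correlation data of `f - c g`.
-/

open MeasureTheory Set Filter
open scoped ENNReal FourierTransform ContDiff Topology ComplexConjugate SchwartzMap

namespace Vale.Agent.P006.JB

open KER

section
variable {f f1 g g1 r : ℝ → ℂ} {C D : ℝ}

lemma Db.norm_le_inv2 (h : Db f C) {x Z : ℝ} (hx : 0 < x) (hZ : 0 < Z) :
    ‖f (Z / x)‖ ≤ C * (x / Z) ^ 2 := by
  have h1 := h.le0 (Z / x) (by positivity)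
  have h2 : (Z / x) ^ 2 ≤ (1 + Z / x) ^ 4 := by
    have h0 : 0 < Z / x := by positivity
    nlinarith [pow_pos h0 2, pow_pos h0 3, pow_pos h0 4]
  have h3 : (Z / x) ^ 2 * ‖f (Z / x)‖ ≤ C := le_trans (by gcongr) h1
  rw [show C * (x / Z) ^ 2 = C / (Z / x) ^ 2 by field_simp, le_div_iff₀ (by positivity), mul_comm]
  exact h3

lemma Db.cv_decay (hf : Db f C) (hg : Db g D) :
    ∃ M : ℝ, 0 ≤ M ∧ ∀ Z : ℝ, 0 < Z → ‖cv f g Z‖ ≤ M / Z ^ 2 := by
  have hC := hf.nonneg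
  have hD := hg.nonneg
  refine ⟨C * D * ∫ x in Ioi (0 : ℝ), x * ((1 + x) ^ 4)⁻¹, ?_, fun Z hZ => ?_⟩
  · have : 0 ≤ ∫ x in Ioi (0 : ℝ), x * ((1 + x) ^ 4)⁻¹ :=
      setIntegral_nonneg measurableSet_Ioi fun x hx => by
        have hx0 : (0 : ℝ) < x := hx
        positivity
    positivity
  · have hint : IntegrableOn (fun x : ℝ => x * ((1 + x) ^ 4)⁻¹) (Ioi 0) := by
      have h1 : Integrable (fun x : ℝ => (1 + ‖x‖) ^ (-(3 : ℝ))) :=
        integrable_one_add_norm (by simp)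
      refine Integrable.mono' h1.integrableOn
        ((by fun_prop : Measurable fun x : ℝ => x * ((1 + x) ^ 4)⁻¹).aestronglyMeasurable)
        ((ae_restrict_mem measurableSet_Ioi).mono fun x hx => ?_)
      have hx0 : (0 : ℝ) < x := hx
      rw [Real.norm_of_nonneg (by positivity), Real.norm_of_nonneg hx0.le, Real.rpow_neg (by linarith),
        show (3 : ℝ) = ((3 : ℕ) : ℝ) by norm_num, Real.rpow_natCast, ← div_eq_mul_inv,
        div_le_iff₀ (by positivity)]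
      have : ((1 + x) ^ 3)⁻¹ * (1 + x) ^ 4 = 1 + x := by
        have : (1 + x) ≠ 0 := by positivity
        field_simp
      rw [this]; linarith
    unfold cv
    calc ‖∫ x in Ioi (0 : ℝ), f x * conj (g (Z / x)) * ((x⁻¹ : ℝ) : ℂ)‖
        ≤ ∫ x in Ioi (0 : ℝ), ‖f x * conj (g (Z / x)) * ((x⁻¹ : ℝ) : ℂ)‖ :=
          norm_integral_le_integral_norm _
      _ ≤ ∫ x in Ioi (0 : ℝ), (C * D / Z ^ 2) * (x * ((1 + x) ^ 4)⁻¹) := by
          apply setIntegral_mono_on (hf.integrableOn hg hZ).norm (hint.const_mul _) measurableSet_Ioi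
          intro x hx
          have hx0 : (0 : ℝ) < x := hx
          rw [norm_mul, norm_mul, Complex.norm_real, Real.norm_of_nonneg (by positivity),
            RCLike.norm_conj]
          have h1 := hf.norm_le hx0.le
          have h2 := hg.norm_le_inv2 hx0 hZ
          calc ‖f x‖ * ‖g (Z / x)‖ * x⁻¹
              ≤ (C * ((1 + x) ^ 4)⁻¹) * (D * (x / Z) ^ 2) * x⁻¹ := by gcongr
            _ = (C * D / Z ^ 2) * (x * ((1 + x) ^ 4)⁻¹) := by field_simp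
      _ = (C * D * ∫ x in Ioi (0 : ℝ), x * ((1 + x) ^ 4)⁻¹) / Z ^ 2 := by
          rw [integral_const_mul]; ring

/-- the correlation data -/
theorem Dc.hPair (hf : Dc f f1 C) (hg : Dc g g1 D) :
    GRAM.HPair f g (cv f g) (cv1 f g1) where
  corr := by
    intro Z _
    unfold cv
    congr 1
    funext x
    rw [div_eq_mul_inv]
    push_cast
    ring
  hd := by
    have hE := hg.eu
    obtain ⟨hm0, hw0, hn0⟩ := hf.toDb.cv_Fw hg.toDb (hf.toDb.fw (p := 0) le_rfl (by norm_num))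
      (hg.toDb.fw (p := 0) le_rfl (by norm_num))
    obtain ⟨_, hw3, _⟩ := hf.toDb.cv_Fw hg.toDb (hf.toDb.fw (p := 1 / 3) (by norm_num) (by norm_num))
      (hg.toDb.fw (p := 1 / 3) (by norm_num) (by norm_num))
    obtain ⟨hm1, he0, _⟩ := hf.toDb.cv_Fw hE (hf.toDb.fw (p := 0) le_rfl (by norm_num))
      (hE.fw (p := 0) le_rfl (by norm_num))
    obtain ⟨_, he3, _⟩ := hf.toDb.cv_Fw hE (hf.toDb.fw (p := 1 / 3) (by norm_num) (by norm_num))
      (hE.fw (p := 1 / 3) (by norm_num) (by norm_num))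
    have key : ∀ Z ∈ Ioi (0 : ℝ), ‖cv f (Eu g1) Z‖ = Z * ‖cv1 f g1 Z‖ := by
      intro Z hZ
      have hZ0 : (0 : ℝ) < Z := hZ
      rw [← cv_Eu, norm_mul, Complex.norm_real, Real.norm_of_nonneg hZ0.le]
    refine ⟨fun Z hZ => Dc.hasDerivAt_cv hf.toDb hg hZ, ?_, ?_, ?_, ?_, ?_⟩
    · have : IntegrableOn (fun x : ℝ => x ^ (0 : ℝ) * ‖cv f g x‖) (Ioi 0) := hw0
      simpa using this
    · have h1 : IntegrableOn (fun x : ℝ => x ^ (0 : ℝ) * ‖cv f (Eu g1) x‖) (Ioi 0) := he0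
      simp only [Real.rpow_zero, one_mul] at h1
      exact h1.congr_fun key measurableSet_Ioi
    · exact hw3
    · have h1 : IntegrableOn (fun x : ℝ => x ^ (1 / 3 : ℝ) * ‖cv f (Eu g1) x‖) (Ioi 0) := he3
      refine h1.congr_fun (fun Z hZ => ?_) measurableSet_Ioi
      have hZ0 : (0 : ℝ) < Z := hZ
      simp only
      rw [key Z hZ, ← mul_assoc, show (4 / 3 : ℝ) = 1 / 3 + 1 by norm_num, Real.rpow_add hZ0,
        Real.rpow_one]
    · obtain ⟨M, hM0, hM⟩ := hf.toDb.cv_decay hg.toDb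
      rw [tendsto_zero_iff_norm_tendsto_zero]
      have h1 : Tendsto (fun Z : ℝ => M / Z) atTop (𝓝 0) := tendsto_const_nhds.div_atTop tendsto_id
      refine tendsto_of_tendsto_of_tendsto_of_le_of_le' tendsto_const_nhds h1
        (Eventually.of_forall fun _ => norm_nonneg _) ?_
      filter_upwards [eventually_gt_atTop 0] with Z hZ
      rw [norm_mul, Complex.norm_real, Real.norm_of_nonneg hZ.le]
      calc Z * ‖cv f g Z‖ ≤ Z * (M / Z ^ 2) := by gcongr; exact hM Z hZ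
        _ = M / Z := by field_simp

lemma nw_zero (f : ℝ → ℂ) : nw 0 f = ∫ x in Ioi (0 : ℝ), ‖f x‖ := by
  unfold nw; simp

/-- `L¹` bounds for a twisted pair with itself -/
theorem Dc.J_self (hf : Dc f f1 C) (hr : Db r C) (t : ℝ)
    (he : ∀ x : ℝ, 0 < x → (x : ℂ) * f1 x = (t * Complex.I - 1) * f x + r x) :
    nw 0 (cv f f) ≤ nw 0 f ^ 2 ∧ nw 0 (cv f (Eu f1)) ≤ nw 0 f ^ 2 + nw 0 f * nw 0 r := by
  have ff := hf.toDb.fw (p := 0) le_rfl (by norm_num)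
  have fr := hr.fw (p := 0) le_rfl (by norm_num)
  obtain ⟨_, w1, n1⟩ := hf.toDb.cv_Fw hf.toDb ff ff
  obtain ⟨_, w2, n2⟩ := hf.toDb.cv_Fw hr ff fr
  obtain ⟨_, w3, n3⟩ := hr.cv_Fw hf.toDb fr ff
  have hE := hf.eu
  obtain ⟨_, w4, _⟩ := hf.toDb.cv_Fw hE ff (hE.fw (p := 0) le_rfl (by norm_num))
  refine ⟨by rw [sq]; exact n1, ?_⟩
  have hb : ∀ Z ∈ Ioi (0 : ℝ), Z ^ (0 : ℝ) * ‖cv f (Eu f1) Z‖ ≤ Z ^ (0 : ℝ) * ‖cv f f Z‖ +
      (1 / 2) * (Z ^ (0 : ℝ) * ‖cv f r Z‖ + Z ^ (0 : ℝ) * ‖cv r f Z‖) := by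
    intro Z hZ
    rw [← cv_Eu, Dc.euler_cv hf hr t he hZ, Real.rpow_zero]
    simp only [one_mul]
    calc ‖-cv f f Z + 1 / 2 * (cv f r Z + cv r f Z)‖
        ≤ ‖-cv f f Z‖ + ‖(1 / 2 : ℂ) * (cv f r Z + cv r f Z)‖ := norm_add_le _ _
      _ ≤ ‖cv f f Z‖ + (1 / 2) * (‖cv f r Z‖ + ‖cv r f Z‖) := by
          rw [norm_neg, norm_mul]
          have : ‖(1 / 2 : ℂ)‖ = 1 / 2 := by norm_num
          rw [this]
          gcongr
          exact norm_add_le _ _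
  have w23 : IntegrableOn (fun Z : ℝ => (1 / 2) * (Z ^ (0 : ℝ) * ‖cv f r Z‖ +
      Z ^ (0 : ℝ) * ‖cv r f Z‖)) (Ioi 0) := (Integrable.add w2 w3).const_mul _
  have w123 : IntegrableOn (fun Z : ℝ => Z ^ (0 : ℝ) * ‖cv f f Z‖ +
      (1 / 2) * (Z ^ (0 : ℝ) * ‖cv f r Z‖ + Z ^ (0 : ℝ) * ‖cv r f Z‖)) (Ioi 0) :=
    Integrable.add w1 w23
  calc nw 0 (cv f (Eu f1)) ≤ ∫ Z in Ioi (0 : ℝ), (Z ^ (0 : ℝ) * ‖cv f f Z‖ +
      (1 / 2) * (Z ^ (0 : ℝ) * ‖cv f r Z‖ + Z ^ (0 : ℝ) * ‖cv r f Z‖)) :=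
        setIntegral_mono_on w4 w123 measurableSet_Ioi hb
    _ = nw 0 (cv f f) + (1 / 2) * (nw 0 (cv f r) + nw 0 (cv r f)) := by
        rw [integral_add w1 w23, integral_const_mul, integral_add w2 w3]
        rfl
    _ ≤ nw 0 f ^ 2 + nw 0 f * nw 0 r := by nlinarith

/-- subadditivity of the weighted norm -/
lemma nw_comb {u v : ℝ → ℂ} {p : ℝ} (hu : Fw p u) (hv : Fw p v) (a b : ℂ)
    {w : ℝ → ℂ} (hw : ∀ x : ℝ, 0 < x → w x = a * u x + b * v x) (hwf : Fw p w) :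
    nw p w ≤ ‖a‖ * nw p u + ‖b‖ * nw p v := by
  calc nw p w ≤ ∫ x in Ioi (0 : ℝ), (‖a‖ * (x ^ p * ‖u x‖) + ‖b‖ * (x ^ p * ‖v x‖)) := by
        have hi : IntegrableOn (fun x : ℝ => ‖a‖ * (x ^ p * ‖u x‖) + ‖b‖ * (x ^ p * ‖v x‖)) (Ioi 0) :=
          (hu.const_mul _).add (hv.const_mul _)
        refine setIntegral_mono_on hwf hi measurableSet_Ioi fun x hx => ?_
        have hx0 : (0 : ℝ) < x := hx
        rw [hw x hx]
        have h1 : ‖a * u x + b * v x‖ ≤ ‖a‖ * ‖u x‖ + ‖b‖ * ‖v x‖ := by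
          refine (norm_add_le _ _).trans ?_
          rw [norm_mul, norm_mul]
        have h2 : 0 ≤ x ^ p := by positivity
        calc x ^ p * ‖a * u x + b * v x‖ ≤ x ^ p * (‖a‖ * ‖u x‖ + ‖b‖ * ‖v x‖) := by gcongr
          _ = _ := by ring
    _ = ‖a‖ * nw p u + ‖b‖ * nw p v := by
        rw [integral_add (hu.const_mul _) (hv.const_mul _), integral_const_mul, integral_const_mul]
        rfl

lemma Db.comb (hf : Db f C) (hg : Db g D) (c : ℂ) : Db (fun x => f x - c * g x) (C + ‖c‖ * D) where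
  cont := by have := hf.cont; have := hg.cont; fun_prop
  le0 := fun x hx => by
    have h1 := hf.le0 x hx
    have h2 := hg.le0 x hx
    calc (1 + x) ^ 4 * ‖f x - c * g x‖ ≤ (1 + x) ^ 4 * (‖f x‖ + ‖c‖ * ‖g x‖) := by
          gcongr; rw [← norm_mul]; exact norm_sub_le _ _
      _ = (1 + x) ^ 4 * ‖f x‖ + ‖c‖ * ((1 + x) ^ 4 * ‖g x‖) := by ring
      _ ≤ C + ‖c‖ * D := by gcongr

lemma Dc.comb (hf : Dc f f1 C) (hg : Dc g g1 D) (c : ℂ) :
    Dc (fun x => f x - c * g x) (fun x => f1 x - c * g1 x) (C + ‖c‖ * D) where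
  toDb := hf.toDb.comb hg.toDb c
  cont1 := by have := hf.cont1; have := hg.cont1; fun_prop
  deriv := fun x hx => (hf.deriv x hx).sub ((hg.deriv x hx).const_mul c)
  le1 := fun x hx => by
    have h1 := hf.le1 x hx
    have h2 := hg.le1 x hx
    calc (1 + x) ^ 5 * ‖f1 x - c * g1 x‖ ≤ (1 + x) ^ 5 * (‖f1 x‖ + ‖c‖ * ‖g1 x‖) := by
          gcongr; rw [← norm_mul]; exact norm_sub_le _ _
      _ = (1 + x) ^ 5 * ‖f1 x‖ + ‖c‖ * ((1 + x) ^ 5 * ‖g1 x‖) := by ring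
      _ ≤ C + ‖c‖ * D := by gcongr

lemma Db.toCL (hf : Db f C) : GRAM.CL f where
  meas := hf.cont.measurable
  bound := ⟨C, hf.nonneg, fun x hx => by
    have := hf.norm_le hx.le
    rwa [div_eq_mul_inv]⟩

lemma nw_le_of_comb {u v : ℝ → ℂ} {p : ℝ} {A B : ℝ} (hu : Db u A) (hv : Db v B) (hp0 : 0 ≤ p)
    (hp : p ≤ 2) (c : ℂ) : nw p (fun x => u x - c * v x) ≤ nw p u + ‖c‖ * nw p v := by
  have h1 := nw_comb (hu.fw hp0 hp) (hv.fw hp0 hp) 1 (-c) (w := fun x => u x - c * v x)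
    (fun x _ => by ring) ((hu.comb hv c).fw hp0 hp)
  rwa [norm_one, one_mul, norm_neg] at h1

/-- **correlation data of `f - c g`** -/
theorem Dc.combination (hf : Dc f f1 C) (hr : Db r C) (t : ℝ)
    (he : ∀ x : ℝ, 0 < x → (x : ℂ) * f1 x = (t * Complex.I - 1) * f x + r x)
    (hg : Dc g g1 D) (c : ℂ) :
    GRAM.CL (fun x => f x - c * g x) ∧ ∃ H H1 : ℝ → ℂ,
      GRAM.HPair (fun x => f x - c * g x) (fun x => f x - c * g x) H H1 ∧
      GRAM.nJ0 H ≤ (nw 0 f + ‖c‖ * nw 0 g) ^ 2 ∧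
      GRAM.nJ1 H1 ≤ nw 0 f ^ 2 + nw 0 f * nw 0 r + 2 * (‖c‖ * (nw 0 f * nw 0 (Eu g1))) +
        ‖c‖ ^ 2 * (nw 0 g * nw 0 (Eu g1)) ∧
      GRAM.nL H ≤ (nw (1 / 3) f + ‖c‖ * nw (1 / 3) g) ^ 2 := by
  set h : ℝ → ℂ := fun x => f x - c * g x with hh
  set h1 : ℝ → ℂ := fun x => f1 x - c * g1 x with hh1
  have hD : Dc h h1 (C + ‖c‖ * D) := hf.comb hg c
  refine ⟨hD.toDb.toCL, cv h h, cv1 h h1, hD.hPair hD, ?_, ?_, ?_⟩
  · obtain ⟨_, _, n1⟩ := hD.toDb.cv_Fw hD.toDb (hD.toDb.fw (p := 0) le_rfl (by norm_num))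
      (hD.toDb.fw (p := 0) le_rfl (by norm_num))
    have e : GRAM.nJ0 (cv h h) = nw 0 (cv h h) := (nw_zero _).symm
    rw [e]
    have h2 := nw_le_of_comb hf.toDb hg.toDb (p := 0) le_rfl (by norm_num) c
    have h3 := nw_nonneg 0 h
    calc nw 0 (cv h h) ≤ nw 0 h * nw 0 h := n1
      _ ≤ (nw 0 f + ‖c‖ * nw 0 g) * (nw 0 f + ‖c‖ * nw 0 g) :=
          mul_le_mul h2 h2 h3 (h3.trans h2)
      _ = _ := by ring
  · have e : GRAM.nJ1 (cv1 h h1) = nw 0 (cv h (Eu h1)) := by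
      rw [nw_zero]
      apply setIntegral_congr_fun measurableSet_Ioi
      intro Z hZ
      have hZ0 : (0 : ℝ) < Z := hZ
      simp only
      rw [← cv_Eu, norm_mul, Complex.norm_real, Real.norm_of_nonneg hZ0.le]
    rw [e]
    have hEf := hf.eu
    have hEg := hg.eu
    have hEh := hD.eu
    have ff := hf.toDb.fw (p := 0) le_rfl (by norm_num)
    have fg := hg.toDb.fw (p := 0) le_rfl (by norm_num)
    have fEf := hEf.fw (p := 0) le_rfl (by norm_num)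
    have fEg := hEg.fw (p := 0) le_rfl (by norm_num)
    obtain ⟨_, w0, _⟩ := hD.toDb.cv_Fw hEh (hD.toDb.fw (p := 0) le_rfl (by norm_num))
      (hEh.fw (p := 0) le_rfl (by norm_num))
    obtain ⟨_, w1, _⟩ := hf.toDb.cv_Fw hEf ff fEf
    obtain ⟨_, w2, n2⟩ := hf.toDb.cv_Fw hEg ff fEg
    obtain ⟨_, w3, n3⟩ := hEg.cv_Fw hf.toDb fEg ff
    obtain ⟨_, w4, n4⟩ := hg.toDb.cv_Fw hEg fg fEg
    obtain ⟨_, n1⟩ := Dc.J_self hf hr t he
    -- common constants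
    set M : ℝ := max C D with hM
    have mf := hf.toDb.mono (le_max_left C D)
    have mg := hg.toDb.mono (le_max_right C D)
    have mEf := hEf.mono (le_max_left C D)
    have mEg := hEg.mono (le_max_right C D)
    have hEh' : ∀ x : ℝ, Eu h1 x = 1 * Eu f1 x + (-c) * Eu g1 x := fun x => by
      simp only [Eu, hh1]; ring
    have hh' : ∀ x : ℝ, h x = 1 * f x + (-c) * g x := fun x => by simp only [hh]; ring
    have key : ∀ Z ∈ Ioi (0 : ℝ), cv h (Eu h1) Z = cv f (Eu f1) Z + conj (-c) * cv f (Eu g1) Z +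
        (-c) * cv (Eu g1) f Z + ((-c) * conj (-c)) * cv g (Eu g1) Z := by
      intro Z hZ
      have hZ0 : (0 : ℝ) < Z := hZ
      rw [cv_congr_left (fun x _ => hh' x) (Eu h1) Z, cv_add_left mf mg hEh 1 (-c) hZ0,
        cv_congr_right (fun x _ => hEh' x) f hZ0, cv_add_right mEf mEg mf 1 (-c) hZ0,
        cv_congr_right (fun x _ => hEh' x) g hZ0, cv_add_right mEf mEg mg 1 (-c) hZ0,
        Dc.cv_swap hg hf hZ0, map_one]
      ring
    have hb : ∀ Z ∈ Ioi (0 : ℝ), Z ^ (0 : ℝ) * ‖cv h (Eu h1) Z‖ ≤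
        ((Z ^ (0 : ℝ) * ‖cv f (Eu f1) Z‖ + ‖c‖ * (Z ^ (0 : ℝ) * ‖cv f (Eu g1) Z‖)) +
        ‖c‖ * (Z ^ (0 : ℝ) * ‖cv (Eu g1) f Z‖)) + ‖c‖ ^ 2 * (Z ^ (0 : ℝ) * ‖cv g (Eu g1) Z‖) := by
      intro Z hZ
      rw [key Z hZ, Real.rpow_zero]
      simp only [one_mul]
      refine (norm_add_le _ _).trans (add_le_add ((norm_add_le _ _).trans (add_le_add
        ((norm_add_le _ _).trans (add_le_add le_rfl ?_)) ?_)) ?_)
      · rw [norm_mul, RCLike.norm_conj, norm_neg]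
      · rw [norm_mul, norm_neg]
      · rw [norm_mul, norm_mul, RCLike.norm_conj, norm_neg, sq]
    have i12 : IntegrableOn (fun Z : ℝ => Z ^ (0 : ℝ) * ‖cv f (Eu f1) Z‖ +
        ‖c‖ * (Z ^ (0 : ℝ) * ‖cv f (Eu g1) Z‖)) (Ioi 0) := Integrable.add w1 (w2.const_mul _)
    have i123 : IntegrableOn (fun Z : ℝ => (Z ^ (0 : ℝ) * ‖cv f (Eu f1) Z‖ +
        ‖c‖ * (Z ^ (0 : ℝ) * ‖cv f (Eu g1) Z‖)) + ‖c‖ * (Z ^ (0 : ℝ) * ‖cv (Eu g1) f Z‖)) (Ioi 0) :=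
      Integrable.add i12 (w3.const_mul _)
    have i1234 : IntegrableOn (fun Z : ℝ => ((Z ^ (0 : ℝ) * ‖cv f (Eu f1) Z‖ +
        ‖c‖ * (Z ^ (0 : ℝ) * ‖cv f (Eu g1) Z‖)) + ‖c‖ * (Z ^ (0 : ℝ) * ‖cv (Eu g1) f Z‖)) +
        ‖c‖ ^ 2 * (Z ^ (0 : ℝ) * ‖cv g (Eu g1) Z‖)) (Ioi 0) :=
      Integrable.add i123 (w4.const_mul _)
    calc nw 0 (cv h (Eu h1)) ≤ _ := setIntegral_mono_on w0 i1234 measurableSet_Ioi hb
      _ = ((nw 0 (cv f (Eu f1)) + ‖c‖ * nw 0 (cv f (Eu g1))) + ‖c‖ * nw 0 (cv (Eu g1) f)) +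
          ‖c‖ ^ 2 * nw 0 (cv g (Eu g1)) := by
          rw [integral_add i123 (w4.const_mul _), integral_add i12 (w3.const_mul _),
            integral_add w1 (w2.const_mul _), integral_const_mul, integral_const_mul,
            integral_const_mul]
          rfl
      _ ≤ ((nw 0 f ^ 2 + nw 0 f * nw 0 r + ‖c‖ * (nw 0 f * nw 0 (Eu g1))) +
          ‖c‖ * (nw 0 (Eu g1) * nw 0 f)) + ‖c‖ ^ 2 * (nw 0 g * nw 0 (Eu g1)) := by
          gcongr
      _ = _ := by ring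
  · obtain ⟨_, _, n1⟩ := hD.toDb.cv_Fw hD.toDb (hD.toDb.fw (p := 1 / 3) (by norm_num) (by norm_num))
      (hD.toDb.fw (p := 1 / 3) (by norm_num) (by norm_num))
    have e : GRAM.nL (cv h h) = nw (1 / 3) (cv h h) := rfl
    rw [e]
    have h2 := nw_le_of_comb hf.toDb hg.toDb (p := 1 / 3) (by norm_num) (by norm_num) c
    have h3 := nw_nonneg (1 / 3) h
    calc nw (1 / 3) (cv h h) ≤ nw (1 / 3) h * nw (1 / 3) h := n1
      _ ≤ (nw (1 / 3) f + ‖c‖ * nw (1 / 3) g) * (nw (1 / 3) f + ‖c‖ * nw (1 / 3) g) :=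
          mul_le_mul h2 h2 h3 (h3.trans h2)
      _ = _ := by ring

end

end Vale.Agent.P006.JB
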