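import Vale.Agent.P006.JB.HS
import Vale.Agent.P006.GRAM.Final

/-!
Block JB: the level `p` inner product for the profiles `Φ(U s^{it}) K B` (input of block R1).
-/

open MeasureTheory Set Filter
open scoped ENNReal FourierTransform ContDiff Topology ComplexConjugate SchwartzMap

namespace Vale.Agent.P006.JB

open KER

/-- norms of the single profile `Φ(U s^{it}) K B` -/
theorem single {U : ℝ → ℂ} {a b : ℝ} (H : Nice U a b) :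
    ∃ C : ℝ, 0 ≤ C ∧ ∀ (t K B : ℝ), 0 < K → 0 < B →
      GRAM.CL (Phi (KER.tw U t) K B) ∧
      ∃ Hh H1 : ℝ → ℂ, GRAM.HPair (Phi (KER.tw U t) K B) (Phi (KER.tw U t) K B) Hh H1 ∧
        GRAM.nrm2 (Phi (KER.tw U t) K B) ≤ C * (K ^ 4 * B ^ 2 / (1 + |t|)) ∧
        GRAM.nJ0 Hh + GRAM.nJ1 H1 ≤ C * (K ^ 4 * B ^ 2 / (1 + |t|)) ∧
        GRAM.nL Hh ≤ C * (K ^ 3 * (B / K) ^ (4 / 3 : ℝ)) ^ 2 := by
  obtain ⟨C, hC, h⟩ := main H H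
  refine ⟨C, hC, fun t K B hK hB => ?_⟩
  obtain ⟨h1, Hh, H1, h2, h3, h4, h5⟩ := h t K B K B hK hB hK hB 0
  have e : (fun x => Phi (KER.tw U t) K B x - 0 * Phi U K B x) = Phi (KER.tw U t) K B := by
    funext x; rw [zero_mul, sub_zero]
  rw [e] at h1 h2 h3
  simp only [norm_zero, zero_mul, add_zero, ne_eq, OfNat.ofNat_ne_zero, not_false_eq_true,
    zero_pow] at h3 h4 h5
  exact ⟨h1, Hh, H1, h2, h3, h4, h5⟩

/-- **input of block R1** -/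
theorem gpHyp {U : ℝ → ℂ} {a b : ℝ} (H : Nice U a b) (t : ℝ) {K : ℝ} (hK : 0 < K) {ε : ℝ}
    (hε : 0 < ε) :
    ∃ C : ℝ, 0 ≤ C ∧ ∀ p : O, Prime p → Primary p → ∀ B : ℝ, 1 ≤ B →
      (∫ w in H9.P3, Phi (KER.tw U t) K B (1 / w.v) *
        (starRingEnd ℂ) (H9.Ediff p R1.eta (Phi (KER.tw U t) K B) w) ∂H9.muH).re ≤
        C * B ^ (2 + ε) := by
  obtain ⟨CS, hCS, hS⟩ := GRAM.strip_hyp_p
  obtain ⟨CM, hCM, hM⟩ := single H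
  set q : ℝ := 1 + |t| with hq
  have hq0 : 0 < q := by positivity
  set E : ℝ := CM * (K ^ 4 / q) * (1 + (1 + 2 / ε)) + CM * (K ^ 3 / K ^ (4 / 3 : ℝ)) ^ 2 with hE
  have hE0 : 0 ≤ E := by positivity
  refine ⟨CS * E, by positivity, fun p hp hpp B hB => ?_⟩
  have hB0 : 0 < B := by linarith
  obtain ⟨h1, Hh, H1, h2, h3, h4, h5⟩ := hM t K B hK hB0
  have key := hS p hp hpp _ Hh H1 h1 h2 (B ^ 2) (by nlinarith)
  refine key.trans ?_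
  have m4 := hs_num4 hε hB
  have m5 : 1 ≤ B ^ ε := Real.one_le_rpow hB hε.le
  have eB : B ^ (2 + ε) = B ^ 2 * B ^ ε := by
    rw [Real.rpow_add hB0]; norm_num
  have n3 : GRAM.nrm2 (Phi (KER.tw U t) K B) ≤ CM * (K ^ 4 / q) * B ^ 2 := by
    refine h3.trans (le_of_eq ?_); ring
  have n4 : GRAM.nJ0 Hh + GRAM.nJ1 H1 ≤ CM * (K ^ 4 / q) * B ^ 2 := by
    refine h4.trans (le_of_eq ?_); ring
  have h0 : 0 ≤ 1 + Real.log (B ^ 2) := by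
    have : 0 ≤ Real.log (B ^ 2) := Real.log_nonneg (by nlinarith)
    linarith
  have n5 : (1 + Real.log (B ^ 2)) * (GRAM.nJ0 Hh + GRAM.nJ1 H1) ≤
      ((1 + 2 / ε) * B ^ ε) * (CM * (K ^ 4 / q) * B ^ 2) :=
    mul_le_mul m4 n4 (add_nonneg GRAM.nJ0_nonneg GRAM.nJ1_nonneg) (by positivity)
  have n6 : GRAM.nL Hh / B ^ 2 ≤ CM * (K ^ 3 / K ^ (4 / 3 : ℝ)) ^ 2 * B ^ 2 := by
    rw [div_le_iff₀ (by positivity)]
    refine h5.trans ?_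
    have e1 : (B / K) ^ (4 / 3 : ℝ) = B ^ (4 / 3 : ℝ) / K ^ (4 / 3 : ℝ) :=
      Real.div_rpow hB0.le hK.le _
    have e2 : B ^ (4 / 3 : ℝ) ≤ B ^ 2 := by
      rw [← Real.rpow_natCast B 2]
      exact Real.rpow_le_rpow_of_exponent_le hB (by norm_num)
    rw [e1]
    calc CM * (K ^ 3 * (B ^ (4 / 3 : ℝ) / K ^ (4 / 3 : ℝ))) ^ 2
        ≤ CM * (K ^ 3 * (B ^ 2 / K ^ (4 / 3 : ℝ))) ^ 2 := by gcongr
      _ = _ := by ring
  have n7 : GRAM.nrm2 (Phi (KER.tw U t) K B) + (1 + Real.log (B ^ 2)) *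
      (GRAM.nJ0 Hh + GRAM.nJ1 H1) + GRAM.nL Hh / B ^ 2 ≤ E * (B ^ 2 * B ^ ε) := by
    have t1 : CM * (K ^ 4 / q) * B ^ 2 ≤ CM * (K ^ 4 / q) * B ^ 2 * B ^ ε :=
      le_mul_of_one_le_right (by positivity) m5
    have t2 : CM * (K ^ 3 / K ^ (4 / 3 : ℝ)) ^ 2 * B ^ 2 ≤
        CM * (K ^ 3 / K ^ (4 / 3 : ℝ)) ^ 2 * B ^ 2 * B ^ ε :=
      le_mul_of_one_le_right (by positivity) m5
    calc _ ≤ CM * (K ^ 4 / q) * B ^ 2 * B ^ ε + ((1 + 2 / ε) * B ^ ε) * (CM * (K ^ 4 / q) * B ^ 2) +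
          CM * (K ^ 3 / K ^ (4 / 3 : ℝ)) ^ 2 * B ^ 2 * B ^ ε := by linarith
      _ = E * (B ^ 2 * B ^ ε) := by rw [hE]; ring
  rw [eB, mul_assoc CS]
  gcongr

end Vale.Agent.P006.JB
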