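import Mathlib
import Vale.Agent.P006.JB.Final

/-!
Block JB, final statement: all the analytic input of the strip bounds of block GRAM for the
functions `h = Phi (tw U t) K B - c Phi U0 K0 B0`, with the correct dependence on the twist `t`.
-/

open MeasureTheory Set Filter
open scoped ENNReal FourierTransform ContDiff Topology ComplexConjugate SchwartzMap

namespace Vale.Agent.P006.JB

open KER

/-- norms of `x ↦ A T(αx)` -/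
lemma exists_norms {V : ℝ → ℂ} {a b : ℝ} (H : Nice V a b) :
    ∃ M : ℝ, 0 ≤ M ∧ ∀ (t : ℝ) (A : ℂ) (α : ℝ), 0 < α →
      nw 0 (sc (JB.twd V t) A α) ≤ M * (‖A‖ / α * (1 + |t|) ^ (-(1 / 2) : ℝ)) ∧
      nw (1 / 3) (sc (JB.twd V t) A α) ≤ M * (‖A‖ / α ^ (4 / 3 : ℝ)) ∧
      GRAM.nrm2 (sc (JB.twd V t) A α) ≤ M * (‖A‖ ^ 2 / α ^ 2 / (1 + |t|)) := by
  obtain ⟨M, hM0, hM⟩ := Nice.exists_L2pair H
  refine ⟨M + 2, by positivity, fun t A α hα => ?_⟩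
  have hY : (1 : ℝ) ≤ 1 + |t| := by linarith [abs_nonneg t]
  have hY0 : (0 : ℝ) < 1 + |t| := by linarith
  have hL := hM t
  obtain ⟨_, h0⟩ := hL.main hY 0 le_rfl (by norm_num)
  obtain ⟨_, h3⟩ := hL.main hY (1 / 3) (by norm_num) le_rfl
  obtain ⟨he, h2⟩ := hL.energy hY
  refine ⟨?_, ?_, ?_⟩
  · rw [nw_sc _ _ hα, Real.rpow_zero, one_mul]
    have e : (0 : ℝ) - 1 / 2 = -(1 / 2) := by norm_num
    rw [e] at h0
    calc ‖A‖ * α⁻¹ * nw 0 (Tf (JB.twd V t)) ≤ ‖A‖ * α⁻¹ * ((M + 2) * (1 + |t|) ^ (-(1 / 2) : ℝ)) := by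
          gcongr; exact h0
      _ = _ := by ring
  · rw [nw_sc _ _ hα]
    have e : α ^ (1 / 3 : ℝ) * α = α ^ (4 / 3 : ℝ) := by
      rw [show (4 / 3 : ℝ) = 1 / 3 + 1 by norm_num, Real.rpow_add hα, Real.rpow_one]
    rw [e]
    have h4 : (1 + |t|) ^ ((1 / 3 : ℝ) - 1 / 2) ≤ 1 :=
      Real.rpow_le_one_of_one_le_of_nonpos hY (by norm_num)
    calc ‖A‖ * (α ^ (4 / 3 : ℝ))⁻¹ * nw (1 / 3) (Tf (JB.twd V t))
        ≤ ‖A‖ * (α ^ (4 / 3 : ℝ))⁻¹ * ((M + 2) * 1) := by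
          gcongr
          exact h3.trans (by gcongr)
      _ = _ := by ring
  · unfold GRAM.nrm2 sc
    have e : ∀ x ∈ Ioi (0 : ℝ), x * ‖A * Tf (JB.twd V t) (α * x)‖ ^ 2 =
        (‖A‖ ^ 2 * α⁻¹) * ((α * x) * ‖Tf (JB.twd V t) (α * x)‖ ^ 2) := by
      intro x _
      rw [norm_mul]
      field_simp
    rw [setIntegral_congr_fun measurableSet_Ioi e, integral_const_mul,
      integral_comp_mul_left_Ioi (fun u : ℝ => u * ‖Tf (JB.twd V t) u‖ ^ 2) 0 hα, mul_zero,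
      smul_eq_mul]
    calc ‖A‖ ^ 2 * α⁻¹ * (α⁻¹ * ∫ x in Ioi (0 : ℝ), x * ‖Tf (JB.twd V t) x‖ ^ 2)
        ≤ ‖A‖ ^ 2 * α⁻¹ * (α⁻¹ * (M / (1 + |t|))) := by gcongr
      _ = M * (‖A‖ ^ 2 / α ^ 2 / (1 + |t|)) := by field_simp
      _ ≤ (M + 2) * (‖A‖ ^ 2 / α ^ 2 / (1 + |t|)) := by gcongr; linarith

lemma twd_zero (V : ℝ → ℂ) : JB.twd V 0 = V := by
  funext x; unfold JB.twd ex; simp

lemma nrm2_comb {f g : ℝ → ℂ} {C D : ℝ} (hf : Db f C) (hg : Db g D) (c : ℂ) :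
    GRAM.nrm2 (fun x => f x - c * g x) ≤ 2 * GRAM.nrm2 f + 2 * ‖c‖ ^ 2 * GRAM.nrm2 g := by
  have h1 := hf.toCL.intOn_sq
  have h2 := hg.toCL.intOn_sq
  have h3 := (hf.comb hg c).toCL.intOn_sq
  have hi : IntegrableOn (fun x : ℝ => 2 * (x * ‖f x‖ ^ 2) + (2 * ‖c‖ ^ 2) * (x * ‖g x‖ ^ 2)) (Ioi 0) :=
    (h1.const_mul 2).add (h2.const_mul _)
  unfold GRAM.nrm2
  calc ∫ x in Ioi (0 : ℝ), x * ‖f x - c * g x‖ ^ 2
      ≤ ∫ x in Ioi (0 : ℝ), (2 * (x * ‖f x‖ ^ 2) + (2 * ‖c‖ ^ 2) * (x * ‖g x‖ ^ 2)) := by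
        refine setIntegral_mono_on h3 hi measurableSet_Ioi fun x hx => ?_
        have hx0 : (0 : ℝ) < x := hx
        have h4 : ‖f x - c * g x‖ ≤ ‖f x‖ + ‖c‖ * ‖g x‖ := by
          rw [← norm_mul]; exact norm_sub_le _ _
        calc x * ‖f x - c * g x‖ ^ 2 ≤ x * (‖f x‖ + ‖c‖ * ‖g x‖) ^ 2 := by gcongr
          _ ≤ x * (2 * ‖f x‖ ^ 2 + 2 * (‖c‖ * ‖g x‖) ^ 2) := by
              gcongr; nlinarith [sq_nonneg (‖f x‖ - ‖c‖ * ‖g x‖)]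
          _ = _ := by ring
    _ = _ := by
        rw [integral_add (h1.const_mul 2) (h2.const_mul _), integral_const_mul, integral_const_mul]

lemma nw_Eu_sc {V : ℝ → ℂ} {a b : ℝ} (H : Nice V a b) (A : ℂ) {α : ℝ} (hα : 0 < α) :
    nw 0 (Eu (deriv (sc (JB.twd V 0) A α))) ≤
      nw 0 (sc (JB.twd V 0) A α) + nw 0 (sc (JB.twd (JB.E1 V) 0) (-A) α) := by
  obtain ⟨C1, d1⟩ := exists_Dc_sc (Nice.twd H 0) A hα
  obtain ⟨C2, d2⟩ := exists_Dc_sc (Nice.twd (Nice.E1 H) 0) (-A) hα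
  have e1 : ∀ x : ℝ, 0 < x → Eu (deriv (sc (JB.twd V 0) A α)) x =
      (-1) * sc (JB.twd V 0) A α x + 1 * sc (JB.twd (JB.E1 V) 0) (-A) α x := by
    intro x hx
    have h1 := euler_sc H 0 A hα hx
    unfold Eu
    rw [h1]; push_cast; ring
  have h2 := nw_comb (d1.toDb.fw (p := 0) le_rfl (by norm_num))
    (d2.toDb.fw (p := 0) le_rfl (by norm_num)) (-1) 1 e1 (d1.eu.fw (p := 0) le_rfl (by norm_num))
  simpa using h2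

lemma num1 {M u w : ℝ} (hM : 0 ≤ M) :
    (M * u + M * w) ^ 2 + ((M * u) ^ 2 + (M * u) * (M * u) +
      2 * ((M * u) * (2 * (M * w))) + (M * w) * (2 * (M * w))) ≤
      20 * (M + 1) ^ 2 * (u ^ 2 + w ^ 2) := by
  have h1 : (M * u + M * w) ^ 2 + ((M * u) ^ 2 + (M * u) * (M * u) +
      2 * ((M * u) * (2 * (M * w))) + (M * w) * (2 * (M * w))) =
      M ^ 2 * (3 * u ^ 2 + 3 * w ^ 2 + 6 * (u * w)) := by ring
  have h2 : 3 * u ^ 2 + 3 * w ^ 2 + 6 * (u * w) ≤ 6 * (u ^ 2 + w ^ 2) := by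
    nlinarith [sq_nonneg (u - w)]
  have h3 : 0 ≤ u ^ 2 + w ^ 2 := by positivity
  have h4 : M ^ 2 * 6 ≤ 20 * (M + 1) ^ 2 := by nlinarith
  rw [h1]
  calc M ^ 2 * (3 * u ^ 2 + 3 * w ^ 2 + 6 * (u * w)) ≤ M ^ 2 * (6 * (u ^ 2 + w ^ 2)) := by gcongr
    _ = (M ^ 2 * 6) * (u ^ 2 + w ^ 2) := by ring
    _ ≤ _ := by gcongr

lemma finJ {M u w A R X1 X2 : ℝ} (hM : 0 ≤ M) (hu : 0 ≤ u) (hw : 0 ≤ w) (hA0 : 0 ≤ A)
    (hA : A ≤ M * u) (hR0 : 0 ≤ R) (hR : R ≤ M * u) (hX10 : 0 ≤ X1) (hX1 : X1 ≤ M * w)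
    (hX20 : 0 ≤ X2) (hX2 : X2 ≤ 2 * (M * w)) :
    (A + X1) ^ 2 + (A ^ 2 + A * R + 2 * (A * X2) + X1 * X2) ≤ 20 * (M + 1) ^ 2 * (u ^ 2 + w ^ 2) := by
  have k5 : 0 ≤ M * u := by positivity
  have k6 : 0 ≤ M * w := by positivity
  have j0 : (A + X1) ^ 2 ≤ (M * u + M * w) ^ 2 := by gcongr
  have j1 : A ^ 2 ≤ (M * u) ^ 2 := by gcongr
  have j2 : A * R ≤ (M * u) * (M * u) := mul_le_mul hA hR hR0 k5
  have j3 : A * X2 ≤ (M * u) * (2 * (M * w)) := mul_le_mul hA hX2 hX20 k5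
  have j4 : X1 * X2 ≤ (M * w) * (2 * (M * w)) := mul_le_mul hX1 hX2 hX20 k6
  refine le_trans ?_ (num1 hM)
  linarith

lemma finL {M k1 k2 p q c : ℝ} (hM : 0 ≤ M) (hc : 0 ≤ c) (hp0 : 0 ≤ p) (hq0 : 0 ≤ q)
    (hp : p ≤ M * k1) (hq : q ≤ M * k2) :
    (p + c * q) ^ 2 ≤ 20 * (M + 1) ^ 2 * (k1 + c * k2) ^ 2 := by
  calc (p + c * q) ^ 2 ≤ (M * k1 + c * (M * k2)) ^ 2 := by gcongr
    _ = M ^ 2 * (k1 + c * k2) ^ 2 := by ring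
    _ ≤ 20 * (M + 1) ^ 2 * (k1 + c * k2) ^ 2 := by
        have : M ^ 2 ≤ 20 * (M + 1) ^ 2 := by nlinarith
        gcongr

lemma num2 {K B : ℝ} (hK : 0 < K) (hB : 0 < B) : K ^ 3 / Real.pi ^ 2 / (K / B) ≤ K ^ 2 * B := by
  have hpi : 1 ≤ Real.pi ^ 2 := by nlinarith [Real.pi_gt_three]
  rw [div_div, div_le_iff₀ (by positivity)]
  have : K ^ 2 * B * (Real.pi ^ 2 * (K / B)) = K ^ 3 * Real.pi ^ 2 := by field_simp
  rw [this]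
  nlinarith [pow_pos hK 3]

lemma num3 {K B : ℝ} (hK : 0 < K) (hB : 0 < B) :
    K ^ 3 / Real.pi ^ 2 / (K / B) ^ (4 / 3 : ℝ) ≤ K ^ 3 * (B / K) ^ (4 / 3 : ℝ) := by
  have hpi : 1 ≤ Real.pi ^ 2 := by nlinarith [Real.pi_gt_three]
  have e2 : (B / K) ^ (4 / 3 : ℝ) = ((K / B) ^ (4 / 3 : ℝ))⁻¹ := by
    rw [← Real.inv_rpow (by positivity), inv_div]
  rw [e2, div_eq_mul_inv]
  gcongr
  exact div_le_self (by positivity) hpi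

/-- all norms of one profile -/
lemma exists_profile {U : ℝ → ℂ} {a b : ℝ} (H : Nice U a b) :
    ∃ M : ℝ, 0 ≤ M ∧ ∀ t K B : ℝ, 0 < K → 0 < B →
      ∃ (r : ℝ → ℂ) (C : ℝ), Dc (Phi (KER.tw U t) K B) (deriv (Phi (KER.tw U t) K B)) C ∧ Db r C ∧
        (∀ x : ℝ, 0 < x → (x : ℂ) * deriv (Phi (KER.tw U t) K B) x =
          (t * Complex.I - 1) * Phi (KER.tw U t) K B x + r x) ∧
        nw 0 (Phi (KER.tw U t) K B) ≤ M * (K ^ 2 * B * (1 + |t|) ^ (-(1 / 2) : ℝ)) ∧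
        nw 0 r ≤ M * (K ^ 2 * B * (1 + |t|) ^ (-(1 / 2) : ℝ)) ∧
        nw (1 / 3) (Phi (KER.tw U t) K B) ≤ M * (K ^ 3 * (B / K) ^ (4 / 3 : ℝ)) ∧
        GRAM.nrm2 (Phi (KER.tw U t) K B) ≤ M * (K ^ 4 * B ^ 2 / (1 + |t|)) := by
  obtain ⟨M1, hM1, n1⟩ := exists_norms H.hW
  obtain ⟨M2, hM2, n2⟩ := exists_norms (Nice.E1 H.hW)
  refine ⟨M1 + M2, by positivity, fun t K B hK hB => ?_⟩
  have hα : 0 < K / B := by positivity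
  have hY0 : (0 : ℝ) < 1 + |t| := by positivity
  set A : ℂ := ((K ^ 3 / Real.pi ^ 2 : ℝ) : ℂ) with hA
  have hAn : ‖A‖ = K ^ 3 / Real.pi ^ 2 := by
    rw [hA, Complex.norm_real, Real.norm_of_nonneg (by positivity)]
  have ef : Phi (KER.tw U t) K B = sc (JB.twd (hW U) t) A (K / B) := by rw [Phi_eq_sc, hW_tw']
  obtain ⟨C1, d1⟩ := exists_Dc_sc (Nice.twd H.hW t) A hα
  obtain ⟨C3, d3⟩ := exists_Dc_sc (Nice.twd (Nice.E1 H.hW) t) (-A) hα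
  obtain ⟨p0, p3, p2⟩ := n1 t A (K / B) hα
  obtain ⟨r0, _, _⟩ := n2 t (-A) (K / B) hα
  rw [norm_neg, hAn] at r0
  rw [hAn] at p0 p3 p2
  have e0 := num2 hK hB
  have e3 := num3 hK hB
  refine ⟨sc (JB.twd (JB.E1 (hW U)) t) (-A) (K / B), max C1 C3, ?_, d3.toDb.mono (le_max_right _ _),
    ?_, ?_, ?_, ?_, ?_⟩
  · rw [ef]; exact d1.mono (le_max_left _ _)
  · intro x hx
    rw [ef]; exact euler_sc H.hW t A hα hx
  · rw [ef]; refine p0.trans ?_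
    gcongr
    linarith
  · refine r0.trans ?_
    gcongr
    linarith
  · rw [ef]; refine p3.trans ?_
    gcongr
    linarith
  · rw [ef]; refine p2.trans ?_
    have e4 : (K ^ 3 / Real.pi ^ 2) ^ 2 / (K / B) ^ 2 ≤ K ^ 4 * B ^ 2 := by
      rw [← div_pow]
      calc (K ^ 3 / Real.pi ^ 2 / (K / B)) ^ 2 ≤ (K ^ 2 * B) ^ 2 := by gcongr
        _ = _ := by ring
    gcongr
    linarith

/-- **JB, final form.** -/
theorem main {U U0 : ℝ → ℂ} {a b a0 b0 : ℝ} (H : Nice U a b) (H0 : Nice U0 a0 b0) :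
    ∃ C : ℝ, 0 ≤ C ∧ ∀ (t K B K0 B0 : ℝ), 0 < K → 0 < B → 0 < K0 → 0 < B0 → ∀ c : ℂ,
      GRAM.CL (fun x => Phi (KER.tw U t) K B x - c * Phi U0 K0 B0 x) ∧
      ∃ Hh H1 : ℝ → ℂ, GRAM.HPair (fun x => Phi (KER.tw U t) K B x - c * Phi U0 K0 B0 x)
          (fun x => Phi (KER.tw U t) K B x - c * Phi U0 K0 B0 x) Hh H1 ∧
        GRAM.nrm2 (fun x => Phi (KER.tw U t) K B x - c * Phi U0 K0 B0 x) ≤
          C * (K ^ 4 * B ^ 2 / (1 + |t|) + ‖c‖ ^ 2 * (K0 ^ 4 * B0 ^ 2)) ∧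
        GRAM.nJ0 Hh + GRAM.nJ1 H1 ≤
          C * (K ^ 4 * B ^ 2 / (1 + |t|) + ‖c‖ ^ 2 * (K0 ^ 4 * B0 ^ 2)) ∧
        GRAM.nL Hh ≤ C * (K ^ 3 * (B / K) ^ (4 / 3 : ℝ) +
          ‖c‖ * (K0 ^ 3 * (B0 / K0) ^ (4 / 3 : ℝ))) ^ 2 := by
  obtain ⟨M1, hM1, n1⟩ := exists_profile H
  obtain ⟨M2, hM2, n2⟩ := exists_profile H0
  set M : ℝ := M1 + M2 with hM
  have hM0 : 0 ≤ M := by positivity
  refine ⟨20 * (M + 1) ^ 2, by positivity, ?_⟩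
  intro t K B K0 B0 hK hB hK0 hB0 c
  obtain ⟨r, C, D1, D3, he, p0, pr, p3, p2⟩ := n1 t K B hK hB
  obtain ⟨r0, C0, d2, d4, he0, q0, qr, q3, q2⟩ := n2 0 K0 B0 hK0 hB0
  have eg : Phi (KER.tw U0 0) K0 B0 = Phi U0 K0 B0 := by
    have : KER.tw U0 0 = U0 := by funext x; unfold KER.tw; simp
    rw [this]
  rw [eg] at d2 he0 q0 q3 q2
  rw [abs_zero, add_zero, Real.one_rpow, mul_one] at q0 qr
  rw [abs_zero, add_zero, div_one] at q2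
  clear_value M
  generalize Phi (KER.tw U t) K B = f at *
  generalize Phi U0 K0 B0 = g at *
  obtain ⟨hCL, Hh, H1, hP, hJ0, hJ1, hL⟩ := Dc.combination D1 D3 t he d2 c
  have hM1' : M1 ≤ M := by linarith
  have hM2' : M2 ≤ M := by linarith
  have hY0 : (0 : ℝ) < 1 + |t| := by positivity
  set y : ℝ := (1 + |t|) ^ (-(1 / 2) : ℝ) with hy
  have hy0 : 0 < y := Real.rpow_pos_of_pos hY0 _
  have hyy : y ^ 2 = 1 / (1 + |t|) := by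
    rw [hy, ← Real.rpow_natCast, ← Real.rpow_mul hY0.le,
      show (-(1 / 2) * ((2 : ℕ) : ℝ) : ℝ) = -1 by norm_num, Real.rpow_neg_one, one_div]
  clear_value y
  set u : ℝ := K ^ 2 * B * y with hu
  have hu0 : 0 < u := by positivity
  have huu : K ^ 4 * B ^ 2 / (1 + |t|) = u ^ 2 := by rw [hu, mul_pow, hyy]; ring
  set w : ℝ := ‖c‖ * (K0 ^ 2 * B0) with hw
  have hw0 : 0 ≤ w := by positivity
  have hww : ‖c‖ ^ 2 * (K0 ^ 4 * B0 ^ 2) = w ^ 2 := by rw [hw]; ring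
  rw [huu, hww]
  rw [huu] at p2
  have u0 : nw 0 f ≤ M * u := p0.trans (by gcongr)
  have u1 : nw 0 r ≤ M * u := pr.trans (by gcongr)
  have v0 : nw 0 g ≤ M * (K0 ^ 2 * B0) := q0.trans (by gcongr)
  have v1 : nw 0 r0 ≤ M * (K0 ^ 2 * B0) := qr.trans (by gcongr)
  have v2 : nw 0 (Eu (deriv g)) ≤ 2 * (M * (K0 ^ 2 * B0)) := by
    have e1 : ∀ x : ℝ, 0 < x → Eu (deriv g) x = (-1) * g x + 1 * r0 x := by
      intro x hx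
      have := he0 x hx
      unfold Eu
      rw [this]; push_cast; ring
    have h2 := nw_comb (d2.toDb.fw (p := 0) le_rfl (by norm_num))
      (d4.fw (p := 0) le_rfl (by norm_num)) (-1) 1 e1 (d2.eu.fw (p := 0) le_rfl (by norm_num))
    rw [norm_neg, norm_one, one_mul, one_mul] at h2
    linarith
  have nf := nw_nonneg 0 f
  have ng := nw_nonneg 0 g
  have nr := nw_nonneg 0 r
  have nE := nw_nonneg 0 (Eu (deriv g))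
  have hc0 := norm_nonneg c
  refine ⟨hCL, Hh, H1, hP, ?_, ?_, ?_⟩
  · -- energy
    have e1 := nrm2_comb D1.toDb d2.toDb c
    have g1 : GRAM.nrm2 f ≤ M * u ^ 2 := p2.trans (by gcongr)
    have g2 : GRAM.nrm2 g ≤ M * (K0 ^ 4 * B0 ^ 2) := q2.trans (by gcongr)
    have g3 : 2 * ‖c‖ ^ 2 * GRAM.nrm2 g ≤ 2 * M * w ^ 2 := by
      calc 2 * ‖c‖ ^ 2 * GRAM.nrm2 g ≤ 2 * ‖c‖ ^ 2 * (M * (K0 ^ 4 * B0 ^ 2)) := by gcongr
        _ = 2 * M * w ^ 2 := by rw [← hww]; ring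
    have g4 : 2 * M * (u ^ 2 + w ^ 2) ≤ 20 * (M + 1) ^ 2 * (u ^ 2 + w ^ 2) := by
      have : 2 * M ≤ 20 * (M + 1) ^ 2 := by nlinarith
      gcongr
    linarith
  · have k1 : ‖c‖ * nw 0 g ≤ M * w := by
      calc ‖c‖ * nw 0 g ≤ ‖c‖ * (M * (K0 ^ 2 * B0)) := by gcongr
        _ = M * w := by rw [hw]; ring
    have k2 : ‖c‖ * nw 0 (Eu (deriv g)) ≤ 2 * (M * w) := by
      calc ‖c‖ * nw 0 (Eu (deriv g)) ≤ ‖c‖ * (2 * (M * (K0 ^ 2 * B0))) := by gcongr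
        _ = 2 * (M * w) := by rw [hw]; ring
    have k7 := finJ hM0 hu0.le hw0 nf u0 nr u1 (mul_nonneg hc0 ng) k1 (mul_nonneg hc0 nE) k2
    have e3 : ‖c‖ * (nw 0 f * nw 0 (Eu (deriv g))) = nw 0 f * (‖c‖ * nw 0 (Eu (deriv g))) := by ring
    have e4 : ‖c‖ ^ 2 * (nw 0 g * nw 0 (Eu (deriv g))) =
        (‖c‖ * nw 0 g) * (‖c‖ * nw 0 (Eu (deriv g))) := by ring
    rw [e3, e4] at hJ1
    linarith
  · exact hL.trans (finL hM0 hc0 (nw_nonneg (1 / 3) f) (nw_nonneg (1 / 3) g)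
      (p3.trans (by gcongr)) (q3.trans (by gcongr)))

end Vale.Agent.P006.JB
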