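import Mathlib
import Vale.Agent.P006.JB.Main
import Vale.Agent.P006.H2.Iface
import Vale.Agent.P006.KER.Norm
import Vale.Agent.P006.KER.Mom2

/-!
Block JB: from the strip bound of block GRAM to the interface `FC.HSHyp` of block FC.
-/

open MeasureTheory Set Filter
open scoped ENNReal FourierTransform ContDiff Topology ComplexConjugate SchwartzMap

namespace Vale.Agent.P006.JB

open KER

/-- the strip bound delivered by block GRAM for profiles with `l(f) = 0` -/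
def StripHyp : Prop :=
  ∃ C : ℝ, 0 ≤ C ∧ ∀ f H H1 : ℝ → ℂ, GRAM.CL f → GRAM.HPair f f H H1 → GRAM.lf f = 0 →
    ∀ A0 : ℝ, 1 ≤ A0 → ∀ x : ℝ, 0 < x →
      ∫⁻ p, ‖FC.FS f p‖ₑ ^ 2 ∂(FC.mB (FC.km (Ioc x (2 * x)))) ≤
        ENNReal.ofReal (C * (x ^ 3 + x) * (GRAM.nrm2 f +
          (1 + Real.log A0) * (GRAM.nJ0 H + GRAM.nJ1 H1) + GRAM.nL H / A0))

/-- multiplication by a real power -/
lemma Nice.mul_rpow {U : ℝ → ℂ} {a b : ℝ} (H : Nice U a b) (σ : ℝ) :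
    Nice (fun x : ℝ => ((x ^ σ : ℝ) : ℂ) * U x) a b where
  smooth := by
    rw [contDiff_iff_contDiffAt]
    intro x
    rcases lt_or_ge x a with hx | hx
    · have : (fun x : ℝ => ((x ^ σ : ℝ) : ℂ) * U x) =ᶠ[𝓝 x] fun _ => 0 := by
        filter_upwards [Nice.eventually_zero H hx] with y hy
        rw [hy, mul_zero]
      exact contDiffAt_const.congr_of_eventuallyEq this
    · have hx0 : x ≠ 0 := (H.pos.trans_le hx).ne'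
      refine ContDiffAt.mul ?_ H.smooth.contDiffAt
      exact Complex.ofRealCLM.contDiff.contDiffAt.comp x
        (Real.contDiffAt_rpow_const_of_ne hx0)
  pos := H.pos
  le := H.le
  supp := fun x hx => by rw [H.supp x hx, mul_zero]

lemma mellin_eq_Gf {U : ℝ → ℂ} {a b : ℝ} (H : Nice U a b) (σ t : ℝ) :
    mellin U ((σ : ℂ) + t * Complex.I) =
      Gf (KER.tw (fun x : ℝ => ((x ^ (σ - 1) : ℝ) : ℂ) * U x) t) 0 := by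
  rw [((Nice.mul_rpow H (σ - 1)).tw t).Gf_eq le_rfl, mellin]
  apply setIntegral_congr_fun measurableSet_Ioi
  intro x hx
  have hx0 : (0 : ℝ) < x := hx
  simp only
  rw [tw_eq_cpow _ _ hx0, smul_eq_mul]
  have e1 : (σ : ℂ) + t * Complex.I - 1 = ((σ - 1 : ℝ) : ℂ) + t * Complex.I := by push_cast; ring
  have hxc : (x : ℂ) ≠ 0 := by exact_mod_cast hx0.ne'
  rw [e1, Complex.cpow_add _ _ hxc, ← Complex.ofReal_cpow hx0.le]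
  ring

lemma exists_mellin_le {U : ℝ → ℂ} {a b : ℝ} (H : Nice U a b) (σ : ℝ) :
    ∃ C : ℝ, 0 ≤ C ∧ ∀ t : ℝ, ‖mellin U ((σ : ℂ) + t * Complex.I)‖ ≤ C / (1 + |t|) := by
  obtain ⟨C, hC0, hC⟩ := (Nice.mul_rpow H (σ - 1)).Gf_tw_bound
  refine ⟨C, hC0, fun t => ?_⟩
  rw [mellin_eq_Gf H]
  exact hC t 0

/-- the functional `l` of a profile -/
lemma lf_Phi {U : ℝ → ℂ} {a b : ℝ} (H : Nice U a b) (t : ℝ) {K B : ℝ} (hK : 0 < K) (hB : 0 < B) :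
    GRAM.lf (Phi (KER.tw U t) K B) =
      ((K ^ 3 / Real.pi ^ 2 * (B / K) ^ (4 / 3 : ℝ) * (Real.Gamma (1 / 3) / 2) *
        (2 : ℝ) ^ (1 / 3 : ℝ) : ℝ) : ℂ) * mellin U ((4 / 3 : ℂ) + t * Complex.I) := by
  have h1 := lfun_Phi (H.tw t) hK hB
  have h2 : GRAM.lf (Phi (KER.tw U t) K B) =
      ∫ v in Ioi (0 : ℝ), Phi (KER.tw U t) K B v * ((v ^ (1 / 3 : ℝ) : ℝ) : ℂ) := by
    unfold GRAM.lf
    congr 1
    funext v
    ring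
  have h3 : ∫ s in Ioi (0 : ℝ), KER.tw U t s * (((2 * s) ^ (1 / 3 : ℝ) : ℝ) : ℂ) =
      (((2 : ℝ) ^ (1 / 3 : ℝ) : ℝ) : ℂ) * mellin U ((4 / 3 : ℂ) + t * Complex.I) := by
    rw [mellin, ← integral_const_mul]
    apply setIntegral_congr_fun measurableSet_Ioi
    intro s hs
    have hs0 : (0 : ℝ) < s := hs
    simp only
    rw [tw_eq_cpow _ _ hs0, smul_eq_mul, Real.mul_rpow (by norm_num) hs0.le]
    have e1 : (4 / 3 : ℂ) + t * Complex.I - 1 = ((1 / 3 : ℝ) : ℂ) + t * Complex.I := by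
      push_cast; ring
    have hsc : (s : ℂ) ≠ 0 := by exact_mod_cast hs0.ne'
    rw [e1, Complex.cpow_add _ _ hsc, ← Complex.ofReal_cpow hs0.le]
    push_cast
    ring
  rw [h2, h1, h3]
  push_cast
  ring

lemma tw_zero (U : ℝ → ℂ) : KER.tw U 0 = U := by funext x; unfold KER.tw; simp

/-- `l(hh) = 0` -/
lemma lf_hh {U U0 : ℝ → ℂ} {a b a0 b0 : ℝ} (H : Nice U a b) (H0 : Nice U0 a0 b0)
    (hm : mellin U0 (4 / 3 : ℂ) ≠ 0) (t : ℝ) {K B B0 : ℝ} (hK : 0 < K) (hB : 0 < B) (hB0 : 0 < B0) :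
    GRAM.lf (FC.hh U U0 t K B B0) = 0 := by
  obtain ⟨M, _, hM⟩ := exists_profile H
  obtain ⟨M0, _, hM0⟩ := exists_profile H0
  obtain ⟨_, C1, D1, _⟩ := hM t K B hK hB
  obtain ⟨_, C2, D2, _⟩ := hM0 0 K B0 hK hB0
  rw [tw_zero] at D2
  have i1 := D1.toDb.toCL.i2
  have i2 := D2.toDb.toCL.i2
  have e0 : ∀ {f : ℝ → ℂ}, GRAM.CL f → IntegrableOn (fun x : ℝ => ((x ^ (1 / 3 : ℝ) : ℝ) : ℂ) * f x)
      (Ioi 0) := by
    intro f hf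
    refine (integrable_norm_iff ?_).1 ?_
    · exact ((Complex.measurable_ofReal.comp (measurable_id.pow_const _)).mul
        hf.meas).aestronglyMeasurable
    · refine IntegrableOn.congr_fun hf.i2 (fun x hx => ?_) measurableSet_Ioi
      have hx0 : (0 : ℝ) < x := hx
      rw [norm_mul, Complex.norm_real, Real.norm_of_nonneg (by positivity)]
  have h1 : GRAM.lf (FC.hh U U0 t K B B0) = GRAM.lf (Phi (KER.tw U t) K B) -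
      FC.cc U U0 t B B0 * GRAM.lf (Phi U0 K B0) := by
    unfold GRAM.lf
    rw [← integral_const_mul, ← integral_sub (e0 D1.toDb.toCL) ((e0 D2.toDb.toCL).const_mul _)]
    congr 1
    funext x
    unfold FC.hh
    ring
  have h2 := lf_Phi H t hK hB
  have h3 := lf_Phi H0 0 hK hB0
  rw [tw_zero] at h3
  rw [h1, h2, h3]
  have e1 : (4 / 3 : ℂ) + ((0 : ℝ) : ℂ) * Complex.I = 4 / 3 := by push_cast; ring
  rw [e1]
  unfold FC.cc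
  have e2 : (B / B0) ^ (4 / 3 : ℝ) * (B0 / K) ^ (4 / 3 : ℝ) = (B / K) ^ (4 / 3 : ℝ) := by
    rw [← Real.mul_rpow (by positivity) (by positivity)]
    congr 1
    field_simp
  have e3 : (((B / B0) ^ (4 / 3 : ℝ) : ℝ) : ℂ) * (((B0 / K) ^ (4 / 3 : ℝ) : ℝ) : ℂ) =
      (((B / K) ^ (4 / 3 : ℝ) : ℝ) : ℂ) := by rw [← Complex.ofReal_mul, e2]
  push_cast [← e3]
  field_simp
  ring

/-- real-variable part -/
lemma cc_bound {U U0 : ℝ → ℂ} {a b : ℝ} (H : Nice U a b) :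
    ∃ C : ℝ, 0 ≤ C ∧ ∀ t B B0 : ℝ, 0 < B → B ≤ B0 →
      ‖FC.cc U U0 t B B0‖ ≤ C / (1 + |t|) * (B / B0) ^ (4 / 3 : ℝ) := by
  obtain ⟨C, hC0, hC⟩ := exists_mellin_le H (4 / 3)
  refine ⟨C / ‖mellin U0 (4 / 3 : ℂ)‖, by positivity, fun t B B0 hB hBB => ?_⟩
  have hB0 : 0 < B0 := hB.trans_le hBB
  have h1 := hC t
  push_cast at h1
  unfold FC.cc
  rw [norm_mul, norm_div, Complex.norm_real, Real.norm_of_nonneg (by positivity)]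
  calc (B / B0) ^ (4 / 3 : ℝ) * (‖mellin U ((4 / 3 : ℂ) + t * Complex.I)‖ / ‖mellin U0 (4 / 3 : ℂ)‖)
      ≤ (B / B0) ^ (4 / 3 : ℝ) * ((C / (1 + |t|)) / ‖mellin U0 (4 / 3 : ℂ)‖) := by gcongr
    _ = _ := by ring

lemma hs_num1 {c C q B B0 : ℝ} (hC : 0 ≤ C) (hq : 1 ≤ q) (hB : 0 < B) (hBB : B ≤ B0) (hc0 : 0 ≤ c)
    (hc : c ≤ C / q * (B / B0) ^ (4 / 3 : ℝ)) : c ^ 2 * B0 ^ 2 ≤ C ^ 2 * (B ^ 2 / q) := by
  have hB0 : 0 < B0 := hB.trans_le hBB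
  have h1 : B / B0 ≤ 1 := (div_le_one hB0).2 hBB
  have h2 : (B / B0) ^ (4 / 3 : ℝ) ≤ B / B0 := by
    calc (B / B0) ^ (4 / 3 : ℝ) ≤ (B / B0) ^ (1 : ℝ) :=
          Real.rpow_le_rpow_of_exponent_ge (by positivity) h1 (by norm_num)
      _ = B / B0 := Real.rpow_one _
  have h3 : c ≤ C / q * (B / B0) := hc.trans (by gcongr)
  calc c ^ 2 * B0 ^ 2 ≤ (C / q * (B / B0)) ^ 2 * B0 ^ 2 := by gcongr
    _ = C ^ 2 * (B ^ 2 / (q * q)) := by field_simp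
    _ ≤ C ^ 2 * (B ^ 2 / q) := by
        gcongr
        nlinarith

lemma hs_num2 {c C q K B B0 : ℝ} (hC : 0 ≤ C) (hq : 1 ≤ q) (hK : 0 < K) (hB : 0 < B) (hBB : B ≤ B0)
    (hc0 : 0 ≤ c) (hc : c ≤ C / q * (B / B0) ^ (4 / 3 : ℝ)) :
    (K ^ 3 * (B / K) ^ (4 / 3 : ℝ) + c * (K ^ 3 * (B0 / K) ^ (4 / 3 : ℝ))) ^ 2 ≤
      (1 + C) ^ 2 * (K ^ 4 * B ^ 2 * (B / K) ^ (2 / 3 : ℝ)) := by
  have hB0 : 0 < B0 := hB.trans_le hBB
  have e1 : (B / B0) ^ (4 / 3 : ℝ) * (B0 / K) ^ (4 / 3 : ℝ) = (B / K) ^ (4 / 3 : ℝ) := by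
    rw [← Real.mul_rpow (by positivity) (by positivity)]
    congr 1
    field_simp
  have h1 : c * (B0 / K) ^ (4 / 3 : ℝ) ≤ C * (B / K) ^ (4 / 3 : ℝ) := by
    calc c * (B0 / K) ^ (4 / 3 : ℝ) ≤ (C / q * (B / B0) ^ (4 / 3 : ℝ)) * (B0 / K) ^ (4 / 3 : ℝ) := by
          gcongr
      _ = C / q * (B / K) ^ (4 / 3 : ℝ) := by rw [mul_assoc, e1]
      _ ≤ C * (B / K) ^ (4 / 3 : ℝ) := by
          gcongr
          exact div_le_self hC hq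
  have e2 : ((B / K) ^ (4 / 3 : ℝ)) ^ 2 = (B / K) ^ 2 * (B / K) ^ (2 / 3 : ℝ) := by
    rw [← Real.rpow_natCast, ← Real.rpow_mul (by positivity), ← Real.rpow_natCast,
      ← Real.rpow_add (by positivity)]
    norm_num
  calc (K ^ 3 * (B / K) ^ (4 / 3 : ℝ) + c * (K ^ 3 * (B0 / K) ^ (4 / 3 : ℝ))) ^ 2
      = (K ^ 3) ^ 2 * ((B / K) ^ (4 / 3 : ℝ) + c * (B0 / K) ^ (4 / 3 : ℝ)) ^ 2 := by ring
    _ ≤ (K ^ 3) ^ 2 * ((B / K) ^ (4 / 3 : ℝ) + C * (B / K) ^ (4 / 3 : ℝ)) ^ 2 := by gcongr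
    _ = (1 + C) ^ 2 * ((K ^ 3) ^ 2 * ((B / K) ^ (4 / 3 : ℝ)) ^ 2) := by ring
    _ = _ := by rw [e2]; field_simp

lemma hs_num3 {δ K B Z q : ℝ} (hδ : 0 < δ) (hK : δ ≤ K) (hB : 0 < B) (hBZ : B ≤ Z) (hZ : 1 ≤ Z)
    (hq0 : 0 < q) (hq : q ≤ Z) :
    (B / K) ^ (2 / 3 : ℝ) / Z ^ 2 ≤ (1 + 1 / δ) / q := by
  have hK0 : 0 < K := hδ.trans_le hK
  have hZ0 : 0 < Z := by linarith
  have hd : 0 < 1 / δ := by positivity
  have h1 : B / K ≤ Z * (1 + 1 / δ) := by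
    calc B / K ≤ Z / δ := by gcongr
      _ = Z * (1 / δ) := by ring
      _ ≤ Z * (1 + 1 / δ) := by gcongr; linarith
  have h2 : 1 ≤ Z * (1 + 1 / δ) := by nlinarith
  have h3 : (B / K) ^ (2 / 3 : ℝ) ≤ Z * (1 + 1 / δ) := by
    calc (B / K) ^ (2 / 3 : ℝ) ≤ (Z * (1 + 1 / δ)) ^ (2 / 3 : ℝ) := by gcongr
      _ ≤ (Z * (1 + 1 / δ)) ^ (1 : ℝ) := Real.rpow_le_rpow_of_exponent_le h2 (by norm_num)
      _ = _ := Real.rpow_one _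
  calc (B / K) ^ (2 / 3 : ℝ) / Z ^ 2 ≤ (Z * (1 + 1 / δ)) / Z ^ 2 := by gcongr
    _ = (1 + 1 / δ) / Z := by field_simp
    _ ≤ (1 + 1 / δ) / q := by gcongr

lemma hs_num4 {ε Z : ℝ} (hε : 0 < ε) (hZ : 1 ≤ Z) :
    1 + Real.log (Z ^ 2) ≤ (1 + 2 / ε) * Z ^ ε := by
  have h1 := Real.log_le_rpow_div (x := Z) (by linarith) hε
  have h2 : 1 ≤ Z ^ ε := Real.one_le_rpow hZ hε.le
  rw [Real.log_pow]
  push_cast
  calc 1 + 2 * Real.log Z ≤ Z ^ ε + 2 * (Z ^ ε / ε) := by gcongr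
    _ = _ := by ring

/-- **the interface `HSHyp`** -/
theorem hsHyp_of_strip (hS : StripHyp) : FC.HSHyp := by
  obtain ⟨CS, hCS, hS⟩ := hS
  intro U a b U0 a0 b0 H H0 hm ε hε δ hδ
  obtain ⟨CM, hCM, hM⟩ := main H H0
  obtain ⟨Cc, hCc, hc⟩ := cc_bound (U0 := U0) H
  set E : ℝ := CM * ((1 + Cc ^ 2) * (1 + (1 + 2 / ε)) + (1 + Cc) ^ 2 * (1 + 1 / δ)) with hE
  have hE0 : 0 ≤ E := by positivity
  refine ⟨CS * E, by positivity, ?_⟩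
  intro t K B B0 Z hK hB hBB hKZ hBZ htZ x hx
  have hK0 : 0 < K := hδ.trans_le hK
  have hB0 : 0 < B := hδ.trans_le hB
  have hB00 : 0 < B0 := hB0.trans_le hBB
  have hq : 1 ≤ 1 + |t| := by linarith [abs_nonneg t]
  have hZ1 : 1 ≤ Z := hq.trans htZ
  have hZ0 : 0 < Z := by linarith
  obtain ⟨hCL, Hh, H1, hP, hn, hJ, hL⟩ := hM t K B K B0 hK0 hB0 hK0 hB00 (FC.cc U U0 t B B0)
  have hcb := hc t B B0 hB0 hBB
  have hl : GRAM.lf (FC.hh U U0 t K B B0) = 0 := lf_hh H H0 hm t hK0 hB0 hB00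
  have key := hS (FC.hh U U0 t K B B0) Hh H1 hCL hP hl (Z ^ 2) (by nlinarith) x hx
  refine key.trans (ENNReal.ofReal_le_ofReal ?_)
  set q : ℝ := 1 + |t| with hqd
  have hq0 : 0 < q := by linarith
  set P : ℝ := K ^ 4 * B ^ 2 / q with hPd
  have hP0 : 0 ≤ P := by positivity
  have m1 := hs_num1 hCc hq hB0 hBB (norm_nonneg _) hcb
  have m2 := hs_num2 (K := K) hCc hq hK0 hB0 hBB (norm_nonneg _) hcb
  have m3 := hs_num3 hδ hK hB0 (hBB.trans hBZ) hZ1 hq0 htZ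
  have m4 := hs_num4 hε hZ1
  have m5 : 1 ≤ Z ^ ε := Real.one_le_rpow hZ1 hε.le
  have n1 : CM * (K ^ 4 * B ^ 2 / q + ‖FC.cc U U0 t B B0‖ ^ 2 * (K ^ 4 * B0 ^ 2)) ≤
      CM * (1 + Cc ^ 2) * P := by
    have : ‖FC.cc U U0 t B B0‖ ^ 2 * (K ^ 4 * B0 ^ 2) ≤ Cc ^ 2 * P := by
      calc ‖FC.cc U U0 t B B0‖ ^ 2 * (K ^ 4 * B0 ^ 2) =
          K ^ 4 * (‖FC.cc U U0 t B B0‖ ^ 2 * B0 ^ 2) := by ring
        _ ≤ K ^ 4 * (Cc ^ 2 * (B ^ 2 / q)) := by gcongr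
        _ = Cc ^ 2 * P := by rw [hPd]; ring
    calc CM * (K ^ 4 * B ^ 2 / q + ‖FC.cc U U0 t B B0‖ ^ 2 * (K ^ 4 * B0 ^ 2)) ≤
        CM * (P + Cc ^ 2 * P) := by gcongr
      _ = _ := by ring
  have n2 : GRAM.nrm2 (FC.hh U U0 t K B B0) ≤ CM * (1 + Cc ^ 2) * P := hn.trans n1
  have n3 : GRAM.nJ0 Hh + GRAM.nJ1 H1 ≤ CM * (1 + Cc ^ 2) * P := hJ.trans n1
  have n4 : GRAM.nL Hh / Z ^ 2 ≤ CM * ((1 + Cc) ^ 2 * (1 + 1 / δ)) * P := by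
    calc GRAM.nL Hh / Z ^ 2 ≤ (CM * ((1 + Cc) ^ 2 * (K ^ 4 * B ^ 2 * (B / K) ^ (2 / 3 : ℝ)))) / Z ^ 2 := by
          gcongr
          exact hL.trans (by gcongr)
      _ = CM * (1 + Cc) ^ 2 * (K ^ 4 * B ^ 2) * ((B / K) ^ (2 / 3 : ℝ) / Z ^ 2) := by ring
      _ ≤ CM * (1 + Cc) ^ 2 * (K ^ 4 * B ^ 2) * ((1 + 1 / δ) / q) := by gcongr
      _ = _ := by rw [hPd]; ring
  have n5 : (1 + Real.log (Z ^ 2)) * (GRAM.nJ0 Hh + GRAM.nJ1 H1) ≤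
      ((1 + 2 / ε) * Z ^ ε) * (CM * (1 + Cc ^ 2) * P) := by
    have h0 : 0 ≤ 1 + Real.log (Z ^ 2) := by
      have : 0 ≤ Real.log (Z ^ 2) := Real.log_nonneg (by nlinarith)
      linarith
    have h1 : 0 ≤ GRAM.nJ0 Hh + GRAM.nJ1 H1 := add_nonneg GRAM.nJ0_nonneg GRAM.nJ1_nonneg
    exact mul_le_mul m4 n3 h1 (by positivity)
  have n6 : GRAM.nrm2 (FC.hh U U0 t K B B0) + (1 + Real.log (Z ^ 2)) * (GRAM.nJ0 Hh + GRAM.nJ1 H1) +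
      GRAM.nL Hh / Z ^ 2 ≤ E * Z ^ ε * P := by
    have t1 : CM * (1 + Cc ^ 2) * P ≤ CM * (1 + Cc ^ 2) * P * Z ^ ε :=
      le_mul_of_one_le_right (by positivity) m5
    have t2 : CM * ((1 + Cc) ^ 2 * (1 + 1 / δ)) * P ≤ CM * ((1 + Cc) ^ 2 * (1 + 1 / δ)) * P * Z ^ ε :=
      le_mul_of_one_le_right (by positivity) m5
    calc _ ≤ CM * (1 + Cc ^ 2) * P * Z ^ ε + ((1 + 2 / ε) * Z ^ ε) * (CM * (1 + Cc ^ 2) * P) +
          CM * ((1 + Cc) ^ 2 * (1 + 1 / δ)) * P * Z ^ ε := by linarith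
      _ = E * Z ^ ε * P := by rw [hE]; ring
  have hx3 : 0 ≤ x ^ 3 + x := by positivity
  calc CS * (x ^ 3 + x) * _ ≤ CS * (x ^ 3 + x) * (E * Z ^ ε * P) := by gcongr
    _ = CS * E * Z ^ ε * P * (x ^ 3 + x) := by ring

end Vale.Agent.P006.JB
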